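import Mathlib
import Vale.Agent.Lib.P012.Stage
import Vale.Agent.Lib.P012.Count

open Finset

namespace Vale.Agent.Lib.P012c

open Vale.Agent.Lib.P012

/-- `r` is effective for `R0`: some multiple of `r` is a sum of eight positive divisors of `R0`. -/
def Eff (R0 r : ℕ) : Prop :=
  ∃ d : Fin 8 → ℕ, (∀ i, 0 < d i ∧ d i ∣ R0) ∧ r ∣ ∑ i, d i

/-- Short interval property at scale `s`: every `y` of bit length about `e ∈ [2^s, 2^(s+1))`
has an effective `r` just below it, within `2^(e - e/64)`. -/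
def SI (s R0 : ℕ) : Prop :=
  ∀ e, 2 ^ s ≤ e → e < 2 ^ (s + 1) → ∀ y, 2 ^ e ≤ y → y < 2 ^ (e + 1) →
    ∃ r, 0 < r ∧ r ≤ y ∧ y < r + 2 ^ (e - e / 64) ∧ Eff R0 r

/-- `Q` is a sum of at most `c` unit fractions, repetitions allowed, whose denominators are
positive multiples of `2^m`. -/
def Rep (m c : ℕ) (Q : ℚ) : Prop :=
  ∃ l : List ℕ, (∀ n ∈ l, 0 < n ∧ 2 ^ m ∣ n) ∧ l.length ≤ c ∧ (l.map fun n : ℕ => 1 / (n : ℚ)).sum = Q

/-- `F` has a chain of divisors down to `1` with consecutive ratios at most `2^g`. -/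
def GoodF (g F : ℕ) : Prop :=
  ∀ X A : ℕ, A < X * F → ∃ d, d ∣ F ∧ A < X * d ∧ (d = 1 ∨ X * d ≤ A * 2 ^ g)

end Vale.Agent.Lib.P012c
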