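import Mathlib
import Vale.Agent.Lib.P012c.Defs

open Finset

namespace Vale.Agent.Lib.P012c

open Vale.Agent.Lib.P012

theorem rep_mono {m c c' : ℕ} {Q : ℚ} (h : Rep m c Q) (hc : c ≤ c') : Rep m c' Q := by
  obtain ⟨l, h1, h2, h3⟩ := h
  exact ⟨l, h1, h2.trans hc, h3⟩

theorem rep_add {m c c' : ℕ} {Q Q' : ℚ} (h : Rep m c Q) (h' : Rep m c' Q') :
    Rep m (c + c') (Q + Q') := by
  obtain ⟨l, h1, h2, h3⟩ := h
  obtain ⟨l', h1', h2', h3'⟩ := h'
  refine ⟨l ++ l', ?_, ?_, ?_⟩
  · intro n hn
    rcases List.mem_append.mp hn with hn | hn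
    · exact h1 n hn
    · exact h1' n hn
  · rw [List.length_append]; omega
  · rw [List.map_append, List.sum_append, h3, h3']

theorem rep_eff (m R0 r D : ℕ) (hR0 : 0 < R0) (hr : 0 < r) (hD : 0 < D) (h : Eff R0 r) :
    Rep m 8 ((r : ℚ) / (2 ^ m * R0 * D)) := by
  obtain ⟨d, hd, g, hg⟩ := h
  have hsum_pos : 0 < ∑ i, d i :=
    Finset.sum_pos (fun i _ => (hd i).1) ⟨0, Finset.mem_univ _⟩
  have hg0 : 0 < g := by
    rcases Nat.eq_zero_or_pos g with h0 | h0
    · rw [h0, Nat.mul_zero] at hg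
      omega
    · exact h0
  have hq : ∀ i, 0 < R0 / d i ∧ d i * (R0 / d i) = R0 := by
    intro i
    have h1 := (hd i).2
    have h2 := Nat.mul_div_cancel' h1
    refine ⟨?_, h2⟩
    exact Nat.div_pos (Nat.le_of_dvd hR0 h1) (hd i).1
  refine ⟨List.ofFn (fun i => 2 ^ m * (D * g * (R0 / d i))), ?_, by simp, ?_⟩
  · intro n hn
    obtain ⟨i, rfl⟩ := (List.mem_ofFn' _ _).mp hn
    refine ⟨?_, Dvd.intro _ rfl⟩
    have := (hq i).1
    positivity
  · rw [List.map_ofFn]
    have hterm : ∀ i : Fin 8, ((1 : ℚ) / ((2 ^ m * (D * g * (R0 / d i)) : ℕ) : ℚ))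
        = (d i : ℚ) / (2 ^ m * D * g * R0) := by
      intro i
      obtain ⟨h1, h2⟩ := hq i
      have h3 : (R0 : ℚ) = (d i : ℚ) * ((R0 / d i : ℕ) : ℚ) := by exact_mod_cast h2.symm
      have h4 : (d i : ℚ) ≠ 0 := by exact_mod_cast (hd i).1.ne'
      have h5 : ((R0 / d i : ℕ) : ℚ) ≠ 0 := by exact_mod_cast h1.ne'
      have h6 : (D : ℚ) ≠ 0 := by exact_mod_cast hD.ne'
      have h7 : (g : ℚ) ≠ 0 := by exact_mod_cast hg0.ne'
      rw [h3]
      push_cast
      field_simp
    have hs : (List.ofFn ((fun n : ℕ => (1 : ℚ) / n) ∘ fun i : Fin 8 => 2 ^ m * (D * g * (R0 / d i)))).sum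
        = ∑ i : Fin 8, (d i : ℚ) / (2 ^ m * D * g * R0) := by
      rw [List.sum_ofFn]
      apply Finset.sum_congr rfl
      intro i _
      exact hterm i
    rw [hs, ← Finset.sum_div]
    have h8 : ((∑ i, d i : ℕ) : ℚ) = (r : ℚ) * g := by exact_mod_cast hg
    rw [← Nat.cast_sum, h8]
    have h4 : (R0 : ℚ) ≠ 0 := by exact_mod_cast hR0.ne'
    have h6 : (D : ℚ) ≠ 0 := by exact_mod_cast hD.ne'
    have h7 : (g : ℚ) ≠ 0 := by exact_mod_cast hg0.ne'
    field_simp

/-- `A` copies of one unit fraction. -/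
theorem rep_copies (m N A : ℕ) (hN : 0 < N) : Rep m A ((A : ℚ) / (2 ^ m * N)) := by
  refine ⟨List.replicate A (2 ^ m * N), ?_, by simp, ?_⟩
  · intro n hn
    rw [List.eq_of_mem_replicate hn]
    exact ⟨by positivity, Dvd.intro _ rfl⟩
  · rw [List.map_replicate, List.sum_replicate]
    push_cast
    simp [div_eq_mul_inv]

theorem ladder (s0 m R0 D S' : ℕ) (hs0 : 12 ≤ s0) (hR0 : 0 < R0) (hD : 0 < D) (hS' : s0 ≤ S')
    (hSI : ∀ s, s0 ≤ s → s < S' → SI s R0) (A : ℕ) (hA : A < 2 ^ (2 ^ S')) :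
    Rep m (2 ^ (2 ^ s0) + 512 * (S' - s0)) ((A : ℚ) / (2 ^ m * R0 * D)) := by
  induction S', hS' using Nat.le_induction generalizing A with
  | base =>
    have h := rep_copies m (R0 * D) A (Nat.mul_pos hR0 hD)
    have hQ : (A : ℚ) / (2 ^ m * ((R0 * D : ℕ) : ℚ)) = (A : ℚ) / (2 ^ m * R0 * D) := by
      push_cast; ring_nf
    rw [hQ] at h
    refine rep_mono h ?_
    simp only [Nat.sub_self, Nat.mul_zero, Nat.add_zero]
    exact hA.le
  | succ S hS ih =>
    have hIH := ih (fun s h1 h2 => hSI s h1 (by omega))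
    have hSS := hSI S hS (by omega)
    set w := 2 ^ (S - 6) with hw
    have hw64 : 64 * w = 2 ^ S := by
      rw [hw, show (64 : ℕ) = 2 ^ 6 by norm_num, ← pow_add]
      congr 1
      omega
    set C := 2 ^ (2 ^ s0) + 512 * (S - s0) with hC
    have key : ∀ t, t ≤ 64 → ∀ A : ℕ, A < 2 ^ (2 ^ S + t * w) →
        Rep m (C + 8 * t) ((A : ℚ) / (2 ^ m * R0 * D)) := by
      intro t
      induction t with
      | zero =>
        intro _ A hA
        simpa using hIH A (by simpa using hA)
      | succ t iht =>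
        intro ht A hA
        have iht' := iht (by omega)
        by_cases hcase : A < 2 ^ (2 ^ S + t * w)
        · exact rep_mono (iht' A hcase) (by omega)
        · push_neg at hcase
          have hApos : A ≠ 0 := by
            have : 0 < 2 ^ (2 ^ S + t * w) := by positivity
            omega
          set e := Nat.log 2 A with he
          have h1 : 2 ^ e ≤ A := Nat.pow_log_le_self 2 hApos
          have h2 : A < 2 ^ (e + 1) := Nat.lt_pow_succ_log_self (by norm_num) A
          have he1 : 2 ^ S + t * w ≤ e := by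
            by_contra hlt
            push_neg at hlt
            have : 2 ^ (e + 1) ≤ 2 ^ (2 ^ S + t * w) :=
              Nat.pow_le_pow_right (by norm_num) (by omega)
            omega
          have he2 : e < 2 ^ S + (t + 1) * w := by
            by_contra hlt
            push_neg at hlt
            have : 2 ^ (2 ^ S + (t + 1) * w) ≤ 2 ^ e :=
              Nat.pow_le_pow_right (by norm_num) hlt
            omega
          have hmul : (t + 1) * w ≤ 64 * w := Nat.mul_le_mul_right _ ht
          have he3 : 2 ^ S ≤ e := by omega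
          have he4 : e < 2 ^ (S + 1) := by
            rw [pow_succ]
            omega
          obtain ⟨r, hr0, hr1, hr2, hr3⟩ := hSS e he3 he4 A h1 h2
          have hdiv : w ≤ e / 64 := by
            rw [Nat.le_div_iff_mul_le (by norm_num)]
            omega
          have hA' : A - r < 2 ^ (2 ^ S + t * w) := by
            have h5 : A - r < 2 ^ (e - e / 64) := by omega
            have h6 : 2 ^ (e - e / 64) ≤ 2 ^ (2 ^ S + t * w) := by
              apply Nat.pow_le_pow_right (by norm_num)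
              have : (t + 1) * w = t * w + w := by ring
              omega
            omega
          have hrep1 := iht' (A - r) hA'
          have hrep2 := rep_eff m R0 r D hR0 hr0 hD hr3
          have hsum := rep_add hrep1 hrep2
          have hQ : (((A - r : ℕ) : ℚ) / (2 ^ m * R0 * D)) + (r : ℚ) / (2 ^ m * R0 * D)
              = (A : ℚ) / (2 ^ m * R0 * D) := by
            rw [← add_div, Nat.cast_sub hr1]
            ring_nf
          rw [hQ] at hsum
          exact rep_mono hsum (by omega)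
    have hfinal := key 64 le_rfl A (by
      have h2 : 2 ^ S + 64 * w = 2 ^ (S + 1) := by rw [hw64, pow_succ]; ring
      rw [h2]; exact hA)
    refine rep_mono hfinal ?_
    have : S + 1 - s0 = (S - s0) + 1 := by omega
    rw [this, hC]
    omega

theorem digits (s0 S m R0 F n : ℕ) (hs0 : 12 ≤ s0) (hS : s0 ≤ S) (hR0 : 0 < R0) (hF0 : 0 < F)
    (hSI : ∀ s, s0 ≤ s → s ≤ S → SI s R0) (hF : GoodF (2 ^ S) F) (A : ℕ)
    (hA : A < 2 ^ (2 ^ (S + 1)) * F) (hn : A < 2 ^ (n * 2 ^ (S - 6)) * 2 ^ (2 ^ (S + 1))) :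
    Rep m (8 * n + (2 ^ (2 ^ s0) + 512 * (S + 1 - s0))) ((A : ℚ) / (2 ^ m * R0 * F)) := by
  have hSI' : ∀ s, s0 ≤ s → s < S + 1 → SI s R0 := fun s h1 h2 => hSI s h1 (by omega)
  have hX : (2 : ℕ) ^ (2 ^ (S + 1)) = 2 ^ (2 ^ S) * 2 ^ (2 ^ S) := by
    rw [← pow_add, pow_succ]
    congr 1
    ring
  induction n generalizing A with
  | zero =>
    simp only [Nat.zero_mul, pow_zero, Nat.one_mul] at hn
    have h := ladder s0 m R0 F (S + 1) hs0 hR0 hF0 (by omega) hSI' A hn
    exact rep_mono h (by omega)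
  | succ n ih =>
    obtain ⟨d, hd1, hd2, hd3⟩ := hF (2 ^ (2 ^ (S + 1))) A hA
    have hd0 : 0 < d := Nat.pos_of_dvd_of_pos hd1 hF0
    rcases hd3 with rfl | hd3
    · have h := ladder s0 m R0 F (S + 1) hs0 hR0 hF0 (by omega) hSI' A (by simpa using hd2)
      exact rep_mono h (by omega)
    · set X := (2 : ℕ) ^ (2 ^ (S + 1)) with hXdef
      set G := (2 : ℕ) ^ (2 ^ S) with hG
      have hGpos : 0 < G := by positivity
      -- y = A / d
      set y := A / d with hy
      have hy1 : y * d ≤ A := Nat.div_mul_le_self A d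
      have hy2 : A < (y + 1) * d := by
        have := Nat.lt_mul_div_succ A hd0
        rw [← hy] at this
        nlinarith
      have hy3 : y < X := by
        by_contra hlt
        push_neg at hlt
        have : X * d ≤ y * d := Nat.mul_le_mul_right d hlt
        omega
      have hy4 : G ≤ y := by
        have h1 : G * d ≤ A := by
          have h2 : G * d * G ≤ A * G := by
            calc G * d * G = X * d := by rw [hX]; ring
              _ ≤ A * G := hd3
          exact Nat.le_of_mul_le_mul_right h2 hGpos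
        exact (Nat.le_div_iff_mul_le hd0).mpr h1
      have hy0 : y ≠ 0 := by omega
      set e := Nat.log 2 y with he
      have h1 : 2 ^ e ≤ y := Nat.pow_log_le_self 2 hy0
      have h2 : y < 2 ^ (e + 1) := Nat.lt_pow_succ_log_self (by norm_num) y
      have he3 : 2 ^ S ≤ e := by
        by_contra hlt
        push_neg at hlt
        have : 2 ^ (e + 1) ≤ G := Nat.pow_le_pow_right (by norm_num) (by omega)
        omega
      have he4 : e < 2 ^ (S + 1) := by
        by_contra hlt
        push_neg at hlt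
        have : X ≤ 2 ^ e := Nat.pow_le_pow_right (by norm_num) hlt
        omega
      obtain ⟨r, hr0, hr1, hr2, hr3⟩ := hSI S hS le_rfl e he3 he4 y h1 h2
      set w := 2 ^ (S - 6) with hw
      have hw64 : 64 * w = 2 ^ S := by
        rw [hw, show (64 : ℕ) = 2 ^ 6 by norm_num, ← pow_add]
        congr 1
        omega
      have hdiv : w ≤ e / 64 := by
        rw [Nat.le_div_iff_mul_le (by norm_num)]
        omega
      have hrd : r * d ≤ A := (Nat.mul_le_mul_right d hr1).trans hy1
      set A' := A - r * d with hA'def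
      have hA'1 : A' < 2 ^ (e - e / 64) * d := by
        have h3 : A < (r + 2 ^ (e - e / 64)) * d :=
          lt_of_lt_of_le hy2 (Nat.mul_le_mul_right d (by omega))
        rw [add_mul] at h3
        omega
      have hA'2 : A' * 2 ^ w ≤ A := by
        have h3 : 2 ^ (e - e / 64) * 2 ^ w ≤ 2 ^ e := by
          rw [← pow_add]
          apply Nat.pow_le_pow_right (by norm_num)
          have : e / 64 ≤ e := Nat.div_le_self _ _
          omega
        calc A' * 2 ^ w ≤ (2 ^ (e - e / 64) * d) * 2 ^ w :=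
              Nat.mul_le_mul_right _ hA'1.le
          _ = (2 ^ (e - e / 64) * 2 ^ w) * d := by ring
          _ ≤ 2 ^ e * d := Nat.mul_le_mul_right _ h3
          _ ≤ y * d := Nat.mul_le_mul_right _ h1
          _ ≤ A := hy1
      have hA'3 : A' < X * F := lt_of_le_of_lt (Nat.sub_le _ _) hA
      have hA'4 : A' < 2 ^ (n * w) * X := by
        have h3 : A' * 2 ^ w < 2 ^ ((n + 1) * w) * X := lt_of_le_of_lt hA'2 hn
        have h4 : 2 ^ ((n + 1) * w) * X = (2 ^ (n * w) * X) * 2 ^ w := by
          rw [show (n + 1) * w = n * w + w by ring, pow_add]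
          ring
        rw [h4] at h3
        exact Nat.lt_of_mul_lt_mul_right h3
      have hrep1 := ih A' hA'3 hA'4
      have hFd : 0 < F / d := Nat.div_pos (Nat.le_of_dvd hF0 hd1) hd0
      have hrep2 := rep_eff m R0 r (F / d) hR0 hr0 hFd hr3
      have hsum := rep_add hrep1 hrep2
      have hFF : (F : ℚ) = (d : ℚ) * ((F / d : ℕ) : ℚ) := by
        exact_mod_cast (Nat.mul_div_cancel' hd1).symm
      have hQ : ((A' : ℕ) : ℚ) / (2 ^ m * R0 * F) + (r : ℚ) / (2 ^ m * R0 * ((F / d : ℕ) : ℚ))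
          = (A : ℚ) / (2 ^ m * R0 * F) := by
        have h5 : (d : ℚ) ≠ 0 := by exact_mod_cast hd0.ne'
        have h6 : ((F / d : ℕ) : ℚ) ≠ 0 := by exact_mod_cast hFd.ne'
        have h7 : (R0 : ℚ) ≠ 0 := by exact_mod_cast hR0.ne'
        have h8 : ((A' : ℕ) : ℚ) = (A : ℚ) - r * d := by
          rw [hA'def, Nat.cast_sub hrd]
          push_cast
          ring
        rw [h8, hFF]
        field_simp
        ring
      rw [hQ] at hsum
      exact rep_mono hsum (by omega)

theorem goodF_one (g : ℕ) : GoodF g 1 := by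
  intro X A hA
  exact ⟨1, dvd_rfl, hA, Or.inl rfl⟩

theorem GoodF.mul {g F f : ℕ} (h : GoodF g F) (hf : f ≤ 2 ^ g) (hf0 : 0 < f) : GoodF g (f * F) := by
  intro X A hA
  by_cases hc : A < X * F
  · obtain ⟨d, h1, h2, h3⟩ := h X A hc
    exact ⟨d, Dvd.dvd.mul_left h1 f, h2, h3⟩
  · push_neg at hc
    refine ⟨f * F, dvd_rfl, hA, Or.inr ?_⟩
    calc X * (f * F) = (X * F) * f := by ring
      _ ≤ A * f := Nat.mul_le_mul_right _ hc
      _ ≤ A * 2 ^ g := Nat.mul_le_mul_left _ hf

/-- Adding one unit fraction to a sum of distinct unit fractions costs at most two new terms. -/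
theorem insert_one (m : ℕ) (S : Finset ℕ) (hS : ∀ n ∈ S, 0 < n) (n : ℕ) (hn : 0 < n)
    (hdvd : 2 ^ m ∣ n) (hm : 2 * #S + 2 ≤ m) :
    ∃ S' : Finset ℕ, (∀ k ∈ S', 0 < k) ∧ #S' ≤ #S + 2 ∧
      ∑ k ∈ S', (1 / (k : ℚ)) = ∑ k ∈ S, (1 / (k : ℚ)) + 1 / (n : ℚ) := by
  classical
  by_cases hnS : n ∈ S
  · -- split `1/n` as `1/(n + j) + 1/(n * (a + 1))`, `j = 2^i`, `a = n / j`
    set I := Finset.range m with hI
    let f1 : ℕ → ℕ := fun i => n + 2 ^ i
    let f2 : ℕ → ℕ := fun i => n * (n / 2 ^ i + 1)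
    have hdi : ∀ i ∈ I, 2 ^ i ∣ n := by
      intro i hi
      have hi' : i < m := Finset.mem_range.mp hi
      exact (pow_dvd_pow 2 hi'.le).trans hdvd
    have hinj1 : Set.InjOn f1 I := by
      intro i _ k _ h
      have h' : n + 2 ^ i = n + 2 ^ k := h
      exact Nat.pow_right_injective (le_refl 2) (Nat.add_left_cancel h')
    have hinj2 : Set.InjOn f2 I := by
      intro i hi k hk h
      have h' : n * (n / 2 ^ i + 1) = n * (n / 2 ^ k + 1) := h
      have h1 := Nat.eq_of_mul_eq_mul_left hn h'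
      have h2 : n / 2 ^ i = n / 2 ^ k := by omega
      have h3 := Nat.div_mul_cancel (hdi i hi)
      have h4 := Nat.div_mul_cancel (hdi k hk)
      have h5 : 0 < n / 2 ^ k := Nat.div_pos (Nat.le_of_dvd hn (hdi k hk)) (by positivity)
      rw [h2] at h3
      have h6 : n / 2 ^ k * 2 ^ i = n / 2 ^ k * 2 ^ k := by rw [h3, h4]
      exact Nat.pow_right_injective (le_refl 2) (Nat.eq_of_mul_eq_mul_left h5 h6)
    have hb1 : #(I.filter fun i => f1 i ∈ S) ≤ #S := by
      apply Finset.card_le_card_of_injOn f1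
      · intro i hi
        exact (Finset.mem_filter.mp hi).2
      · intro i hi k hk h
        exact hinj1 (Finset.mem_filter.mp hi).1 (Finset.mem_filter.mp hk).1 h
    have hb2 : #(I.filter fun i => f2 i ∈ S) ≤ #S := by
      apply Finset.card_le_card_of_injOn f2
      · intro i hi
        exact (Finset.mem_filter.mp hi).2
      · intro i hi k hk h
        exact hinj2 (Finset.mem_filter.mp hi).1 (Finset.mem_filter.mp hk).1 h
    have hcard : #((I.filter fun i => f1 i ∈ S) ∪ (I.filter fun i => f2 i ∈ S)) < #I := by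
      have h1 := Finset.card_union_le (I.filter fun i => f1 i ∈ S) (I.filter fun i => f2 i ∈ S)
      have h2 : #I = m := Finset.card_range m
      omega
    obtain ⟨i, hi, hi'⟩ : ∃ i ∈ I, i ∉ (I.filter fun i => f1 i ∈ S) ∪ (I.filter fun i => f2 i ∈ S) := by
      by_contra hno
      push_neg at hno
      have : I ⊆ (I.filter fun i => f1 i ∈ S) ∪ (I.filter fun i => f2 i ∈ S) := fun i hi => hno i hi
      have := Finset.card_le_card this
      omega
    have h1S : f1 i ∉ S := by
      intro h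
      exact hi' (Finset.mem_union_left _ (Finset.mem_filter.mpr ⟨hi, h⟩))
    have h2S : f2 i ∉ S := by
      intro h
      exact hi' (Finset.mem_union_right _ (Finset.mem_filter.mpr ⟨hi, h⟩))
    have him : i < m := Finset.mem_range.mp hi
    have hj : 0 < 2 ^ i := by positivity
    set a := n / 2 ^ i with ha
    have haj : a * 2 ^ i = n := Nat.div_mul_cancel (hdi i hi)
    have ha0 : 0 < a := Nat.div_pos (Nat.le_of_dvd hn (hdi i hi)) hj
    have hne : f1 i ≠ f2 i := by
      intro h
      have h' : n + 2 ^ i = n * (a + 1) := h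
      -- `2^i < n` since `2^(i+1) ∣ n`
      have h3 : 2 ^ (i + 1) ∣ n := (pow_dvd_pow 2 him).trans hdvd
      have h4 : 2 ^ (i + 1) ≤ n := Nat.le_of_dvd hn h3
      have h5 : 2 ^ (i + 1) = 2 * 2 ^ i := by rw [pow_succ]; ring
      have h6 : n * (a + 1) = n * a + n := by ring
      have h7 : n ≤ n * a := Nat.le_mul_of_pos_right n ha0
      omega
    refine ⟨insert (f1 i) (insert (f2 i) S), ?_, ?_, ?_⟩
    · intro k hk
      rcases Finset.mem_insert.mp hk with rfl | hk
      · exact Nat.add_pos_left hn _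
      · rcases Finset.mem_insert.mp hk with rfl | hk
        · exact Nat.mul_pos hn (Nat.succ_pos _)
        · exact hS k hk
    · exact (Finset.card_insert_le _ _).trans (by
        have := Finset.card_insert_le (f2 i) S
        omega)
    · have hnot : f1 i ∉ insert (f2 i) S := by
        intro h
        rcases Finset.mem_insert.mp h with h | h
        · exact hne h
        · exact h1S h
      rw [Finset.sum_insert hnot, Finset.sum_insert h2S]
      have hf1 : ((f1 i : ℕ) : ℚ) = ((2 ^ i : ℕ) : ℚ) * ((a : ℚ) + 1) := by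
        have h' : f1 i = 2 ^ i * (a + 1) := by
          change n + 2 ^ i = 2 ^ i * (a + 1)
          rw [← haj]
          ring
        rw [h']
        push_cast
        ring
      have hf2 : ((f2 i : ℕ) : ℚ) = (a : ℚ) * ((2 ^ i : ℕ) : ℚ) * ((a : ℚ) + 1) := by
        have h' : f2 i = a * 2 ^ i * (a + 1) := by
          change n * (a + 1) = a * 2 ^ i * (a + 1)
          rw [haj]
        rw [h']
        push_cast
        ring
      have hnn : (n : ℚ) = (a : ℚ) * ((2 ^ i : ℕ) : ℚ) := by
        rw [← haj]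
        push_cast
        ring
      rw [hf1, hf2, hnn]
      have h1 : (a : ℚ) ≠ 0 := by exact_mod_cast ha0.ne'
      have h2 : ((2 ^ i : ℕ) : ℚ) ≠ 0 := by exact_mod_cast hj.ne'
      have h3 : (a : ℚ) + 1 ≠ 0 := by positivity
      field_simp
      ring
  · refine ⟨insert n S, ?_, ?_, ?_⟩
    · intro k hk
      rcases Finset.mem_insert.mp hk with rfl | hk
      · exact hn
      · exact hS k hk
    · have := Finset.card_insert_le n S
      omega
    · rw [Finset.sum_insert hnS]
      ring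

theorem dedup (m c : ℕ) (T : Finset ℕ) (hT : ∀ n ∈ T, 0 < n) (Q : ℚ) (hm : 2 * (#T + 2 * c) + 2 ≤ m)
    (hrep : Rep m c Q) : ∃ S : Finset ℕ, (∀ n ∈ S, 0 < n) ∧ #S ≤ #T + 2 * c ∧
      ∑ n ∈ S, (1 / (n : ℚ)) = ∑ n ∈ T, (1 / (n : ℚ)) + Q := by
  obtain ⟨l, h1, h2, h3⟩ := hrep
  subst h3
  have key : ∀ l : List ℕ, (∀ n ∈ l, 0 < n ∧ 2 ^ m ∣ n) → 2 * (#T + 2 * l.length) + 2 ≤ m →
      ∃ S : Finset ℕ, (∀ n ∈ S, 0 < n) ∧ #S ≤ #T + 2 * l.length ∧
        ∑ n ∈ S, (1 / (n : ℚ)) = ∑ n ∈ T, (1 / (n : ℚ)) + (l.map fun n : ℕ => 1 / (n : ℚ)).sum := by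
    intro l
    induction l with
    | nil =>
      intro _ _
      exact ⟨T, hT, by simp, by simp⟩
    | cons x l ih =>
      intro hl hm'
      simp only [List.length_cons] at hm'
      obtain ⟨S, hS1, hS2, hS3⟩ := ih (fun n hn => hl n (List.mem_cons_of_mem _ hn)) (by omega)
      obtain ⟨hx0, hxd⟩ := hl x List.mem_cons_self
      obtain ⟨S', hS1', hS2', hS3'⟩ := insert_one m S hS1 x hx0 hxd (by omega)
      refine ⟨S', hS1', ?_, ?_⟩
      · simp only [List.length_cons]
        omega
      · rw [hS3', hS3]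
        simp only [List.map_cons, List.sum_cons]
        ring
  have hl : l.length ≤ c := h2
  obtain ⟨S, hS1, hS2, hS3⟩ := key l h1 (by omega)
  exact ⟨S, hS1, by omega, hS3⟩

end Vale.Agent.Lib.P012c
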