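import Mathlib
import Vale.Agent.Lib.P012c.Digits

open Finset
namespace Vale.Agent.Lib.P012c
open Vale.Agent.Lib.P012

/-- One Sylvester-type step. -/
lemma one_step (g K V B : ℕ) (hg : 2 ≤ g) (hV : 0 < V)
    (hx0 : 0 < (B : ℚ) / (2 ^ K * V)) (hx1 : (B : ℚ) / (2 ^ K * V) < 1)
    (hxK : (1 : ℚ) / 2 ^ K ≤ (B : ℚ) / (2 ^ K * V)) :
    ∃ n v B' : ℕ, 0 < n ∧ 0 < v ∧ v ≤ 2 ^ g ∧
      (B : ℚ) / (2 ^ K * V) = 1 / (n : ℚ) + (B' : ℚ) / (2 ^ K * ((v * V : ℕ) : ℚ)) ∧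
      (1 : ℚ) / n ≤ (B : ℚ) / (2 ^ K * V) ∧
      (B' : ℚ) / (2 ^ K * ((v * V : ℕ) : ℚ)) < 1 / (n : ℚ) ∧
      (B' : ℚ) / (2 ^ K * ((v * V : ℕ) : ℚ)) < (B : ℚ) / (2 ^ K * V) / 2 ∧
      ((B' : ℚ) / (2 ^ K * ((v * V : ℕ) : ℚ)) < ((B : ℚ) / (2 ^ K * V)) ^ 2 ∨
        (B' : ℚ) / (2 ^ K * ((v * V : ℕ) : ℚ)) < (B : ℚ) / (2 ^ K * V) / 2 ^ (g - 1)) := by
  classical
  set x : ℚ := (B : ℚ) / (2 ^ K * V) with hx
  have hVQ : (0 : ℚ) < V := by exact_mod_cast hV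
  have h2K : (0 : ℚ) < 2 ^ K := by positivity
  have hxK' : 1 ≤ x * 2 ^ K := by
    rwa [div_le_iff₀ h2K] at hxK
  have h2g1 : (1 : ℚ) ≤ 2 ^ g := one_le_pow₀ (by norm_num)
  have hKk : 1 ≤ x * 2 ^ K * 2 ^ g := by nlinarith
  have hex : ∃ k : ℕ, 1 ≤ x * 2 ^ k * 2 ^ g := ⟨K, hKk⟩
  set k := Nat.find hex with hk_def
  have hk : 1 ≤ x * 2 ^ k * 2 ^ g := Nat.find_spec hex
  have hkK : k ≤ K := Nat.find_min' hex hKk
  set Q : ℚ := 2 ^ k with hQ
  have hQ0 : 0 < Q := by positivity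
  set G : ℚ := 2 ^ g with hG
  have hG4 : (4 : ℚ) ≤ G := by
    calc (4 : ℚ) = 2 ^ 2 := by norm_num
      _ ≤ 2 ^ g := pow_le_pow_right₀ (by norm_num) hg
  have hxQ : 0 < x * Q := mul_pos hx0 hQ0
  set y : ℚ := 1 / (x * Q) with hy
  have hy0 : 0 < y := by positivity
  have hxy : x * Q * y = 1 := by
    rw [hy]
    field_simp
  set v := ⌈y⌉₊ with hv
  have hv1 : y ≤ v := Nat.le_ceil y
  have hv2 : (v : ℚ) < y + 1 := Nat.ceil_lt_add_one hy0.le
  have hyG : y ≤ G := by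
    rw [hy, div_le_iff₀ hxQ]
    nlinarith
  have hvG : v ≤ 2 ^ g := by
    apply Nat.ceil_le.2
    push_cast
    exact hyG
  have hv0 : 0 < v := Nat.ceil_pos.2 hy0
  have hvQ0 : (0 : ℚ) < v := by exact_mod_cast hv0
  -- the two cases for `k`
  have hcase : (k = 0 ∧ 1 / x ≤ (v : ℚ)) ∨ (0 < k ∧ G / 2 < (v : ℚ)) := by
    rcases Nat.eq_zero_or_pos k with h0 | h0
    · left
      refine ⟨h0, ?_⟩
      have : y = 1 / x := by
        rw [hy, hQ, h0]
        simp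
      rw [← this]
      exact hv1
    · right
      refine ⟨h0, ?_⟩
      have hmin := Nat.find_min hex (m := k - 1) (by omega)
      have hlt : x * 2 ^ (k - 1) * 2 ^ g < 1 := not_le.1 hmin
      have hQ2 : Q = 2 * 2 ^ (k - 1) := by
        rw [hQ, ← pow_succ']
        congr 1
        omega
      have h1 : G / 2 < y := by
        rw [hy, lt_div_iff₀ hxQ, hQ2]
        have e : G / 2 * (x * (2 * 2 ^ (k - 1))) = x * 2 ^ (k - 1) * 2 ^ g := by
          rw [hG]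
          ring
        rw [e]
        exact hlt
      linarith
  have hv2' : (2 : ℚ) ≤ v := by
    rcases hcase with ⟨h0, h1⟩ | ⟨_, h1⟩
    · have h2 : (1 : ℚ) < 1 / x := by
        rw [lt_div_iff₀ hx0]
        linarith
      have h3 : (1 : ℚ) < v := lt_of_lt_of_le h2 h1
      have h4 : 1 < v := by exact_mod_cast h3
      have h5 : 2 ≤ v := h4
      exact_mod_cast h5
    · linarith
  -- key inequality
  have hkey : x * Q * ((v : ℚ) - 1) < 1 := by
    have h1 : (v : ℚ) - 1 < y := by linarith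
    calc x * Q * ((v : ℚ) - 1) < x * Q * y := mul_lt_mul_of_pos_left h1 hxQ
      _ = 1 := hxy
  have hxv : 1 ≤ x * (Q * v) := by
    calc (1 : ℚ) = x * Q * y := hxy.symm
      _ ≤ x * Q * v := mul_le_mul_of_nonneg_left hv1 hxQ.le
      _ = x * (Q * v) := by ring
  set n := 2 ^ k * v with hn
  have hnQ : (n : ℚ) = Q * v := by
    rw [hn, hQ]
    push_cast
    ring
  have hn0 : 0 < n := by positivity
  have hQv : 0 < Q * v := mul_pos hQ0 hvQ0
  have hxn : (1 : ℚ) / n ≤ x := by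
    rw [hnQ, div_le_iff₀ hQv]
    exact hxv
  -- the new numerator
  set P : ℚ := 2 ^ (K - k) with hP
  have hP0 : 0 < P := by positivity
  have hPQ : (2 : ℚ) ^ K = P * Q := by
    rw [hP, hQ, ← pow_add]
    congr 1
    omega
  have hxB : x = (B : ℚ) / (P * Q * V) := by rw [hx, hPQ]
  have hle : 2 ^ (K - k) * V ≤ B * v := by
    have h1 : (2 ^ (K - k) * V : ℚ) ≤ B * v := by
      have h2 : 1 ≤ (B : ℚ) / (P * Q * V) * (Q * v) := by rw [← hxB]; exact hxv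
      have h3 : (B : ℚ) / (P * Q * V) * (Q * v) = (B * v) / (P * V) := by
        field_simp
      rw [h3, le_div_iff₀ (by positivity)] at h2
      rw [← hP]
      linarith
    exact_mod_cast h1
  set B' := B * v - 2 ^ (K - k) * V with hB'
  have hB'Q : (B' : ℚ) = B * v - P * V := by
    rw [hB', Nat.cast_sub hle, hP]
    push_cast
    ring
  have hvV : ((v * V : ℕ) : ℚ) = v * V := by push_cast; ring
  have hx' : (B' : ℚ) / (2 ^ K * ((v * V : ℕ) : ℚ)) = x - 1 / (n : ℚ) := by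
    rw [hvV, hB'Q, hPQ, hxB, hnQ]
    field_simp
  refine ⟨n, v, B', hn0, hv0, hvG, ?_, hxn, ?_, ?_, ?_⟩
  · rw [hx']
    ring
  · rw [hx', hnQ]
    have h1 : (v : ℚ) ≤ 2 * ((v : ℚ) - 1) := by linarith
    have h2 : x * (Q * v) < 2 := by
      calc x * (Q * v) = x * Q * v := by ring
        _ ≤ x * Q * (2 * ((v : ℚ) - 1)) := mul_le_mul_of_nonneg_left h1 hxQ.le
        _ = 2 * (x * Q * ((v : ℚ) - 1)) := by ring
        _ < 2 := by linarith
    have h3 : x < 2 / (Q * v) := by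
      rw [lt_div_iff₀ hQv]
      exact h2
    have h4 : 2 / (Q * v) = 1 / (Q * v) + 1 / (Q * v) := by ring
    linarith
  · -- x' < x / v <= x / 2
    have hlt : x - 1 / (Q * v) < x / v := by
      have e : x / v - (x - 1 / (Q * v)) = (1 - x * Q * ((v : ℚ) - 1)) / (Q * v) := by
        field_simp
        ring
      have h1 : 0 < (1 - x * Q * ((v : ℚ) - 1)) / (Q * v) := by
        apply div_pos _ hQv
        linarith
      linarith
    have h2 : x / v ≤ x / 2 := div_le_div_of_nonneg_left hx0.le (by norm_num) hv2'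
    rw [hx', hnQ]
    linarith
  · have hlt : x - 1 / (Q * v) < x / v := by
      have e : x / v - (x - 1 / (Q * v)) = (1 - x * Q * ((v : ℚ) - 1)) / (Q * v) := by
        field_simp
        ring
      have h1 : 0 < (1 - x * Q * ((v : ℚ) - 1)) / (Q * v) := by
        apply div_pos _ hQv
        linarith
      linarith
    rw [hx', hnQ]
    rcases hcase with ⟨_, h1⟩ | ⟨_, h1⟩
    · left
      have h2 : 1 / (v : ℚ) ≤ x := by
        rw [div_le_iff₀ hvQ0]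
        rw [div_le_iff₀ hx0] at h1
        linarith
      have h3 : x / v ≤ x ^ 2 := by
        calc x / v = x * (1 / (v : ℚ)) := by ring
          _ ≤ x * x := mul_le_mul_of_nonneg_left h2 hx0.le
          _ = x ^ 2 := by ring
      linarith
    · right
      have h2 : (2 : ℚ) ^ (g - 1) = G / 2 := by
        have : g = (g - 1) + 1 := by omega
        rw [hG]
        conv_rhs => rw [this, pow_succ]
        simp
      rw [h2]
      have h3 : x / v < x / (G / 2) :=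
        div_lt_div_of_pos_left hx0 (by linarith) h1
      linarith

/-- Reachability: from the state `B / (2^K V)` one gets below `θ` within `t` unit fractions. -/
def Reach (g K : ℕ) (θ : ℚ) (t V B : ℕ) : Prop :=
  ∃ (T : Finset ℕ) (V' B' : ℕ), 0 < V' ∧ GoodF g V' ∧ V' ≤ V * 2 ^ (g * t) ∧ #T ≤ t ∧
    (∀ n ∈ T, 0 < n ∧ (1 : ℚ) / n ≤ (B : ℚ) / (2 ^ K * V)) ∧
    (B : ℚ) / (2 ^ K * V) = ∑ n ∈ T, (1 / (n : ℚ)) + (B' : ℚ) / (2 ^ K * V') ∧
    (B' : ℚ) / (2 ^ K * V') < θ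

lemma Reach.mono {g K t t' V B : ℕ} {θ : ℚ} (h : Reach g K θ t V B) (ht : t ≤ t') :
    Reach g K θ t' V B := by
  obtain ⟨T, V', B', h1, h2, h3, h4, h5, h6, h7⟩ := h
  refine ⟨T, V', B', h1, h2, h3.trans ?_, h4.trans ht, h5, h6, h7⟩
  apply Nat.mul_le_mul_left
  exact Nat.pow_le_pow_right (by norm_num) (Nat.mul_le_mul_left _ ht)

lemma Reach.done {g K V B : ℕ} {θ : ℚ} (hV : 0 < V) (hG : GoodF g V)
    (hx : (B : ℚ) / (2 ^ K * V) < θ) : Reach g K θ 0 V B := by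
  refine ⟨∅, V, B, hV, hG, by simp, by simp, by simp, by simp, hx⟩

lemma Reach.step {g K t V B n v B' : ℕ} {θ : ℚ} (hn : 0 < n) (hv : v ≤ 2 ^ g)
    (hsum : (B : ℚ) / (2 ^ K * V) = 1 / (n : ℚ) + (B' : ℚ) / (2 ^ K * ((v * V : ℕ) : ℚ)))
    (hxn : (1 : ℚ) / n ≤ (B : ℚ) / (2 ^ K * V))
    (hlt : (B' : ℚ) / (2 ^ K * ((v * V : ℕ) : ℚ)) < 1 / (n : ℚ))
    (h : Reach g K θ t (v * V) B') : Reach g K θ (t + 1) V B := by
  obtain ⟨T, V', B'', h1, h2, h3, h4, h5, h6, h7⟩ := h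
  have hnQ : (0 : ℚ) < 1 / (n : ℚ) := by
    have : (0 : ℚ) < n := by exact_mod_cast hn
    positivity
  have hnT : n ∉ T := by
    intro hm
    have := (h5 n hm).2
    linarith
  refine ⟨insert n T, V', B'', h1, h2, ?_, ?_, ?_, ?_, h7⟩
  · calc V' ≤ v * V * 2 ^ (g * t) := h3
      _ ≤ 2 ^ g * V * 2 ^ (g * t) := by
        apply Nat.mul_le_mul_right
        exact Nat.mul_le_mul_right _ hv
      _ = V * 2 ^ (g * (t + 1)) := by
        rw [mul_add, pow_add]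
        ring
  · rw [Finset.card_insert_of_notMem hnT]
    omega
  · intro m hm
    rcases Finset.mem_insert.1 hm with rfl | hm
    · exact ⟨hn, hxn⟩
    · obtain ⟨h8, h9⟩ := h5 m hm
      refine ⟨h8, ?_⟩
      linarith
  · rw [Finset.sum_insert hnT, hsum, h6]
    ring

section Run

variable {g K m : ℕ} {θ : ℚ}

lemma half_pow_eq (e : ℕ) : (1 / 2 : ℚ) ^ e = 1 / 2 ^ e := by
  rw [div_pow, one_pow]

lemma run2 (hg : 2 ≤ g) (hθK : (1 : ℚ) / 2 ^ K ≤ θ) (hE : (1 / 2 : ℚ) ^ ((g - 1) * (m + 1)) ≤ θ)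
    (t : ℕ) : ∀ (E V B : ℕ), 0 < V → GoodF g V → g - 1 ≤ E → (g - 1) * (m + 1) ≤ E + t * (g - 1) →
      (B : ℚ) / (2 ^ K * V) < 1 → (B : ℚ) / (2 ^ K * V) < (1 / 2 : ℚ) ^ E →
      Reach g K θ t V B := by
  have hh0 : (0 : ℚ) < 1 / 2 := by norm_num
  have hh1 : (1 / 2 : ℚ) ≤ 1 := by norm_num
  induction t with
  | zero =>
    intro E V B hV hG h1 h2 h3 h4
    apply Reach.done hV hG
    have h5 : (1 / 2 : ℚ) ^ E ≤ (1 / 2 : ℚ) ^ ((g - 1) * (m + 1)) :=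
      pow_le_pow_of_le_one hh0.le hh1 (by omega)
    linarith
  | succ t ih =>
    intro E V B hV hG h1 h2 h3 h4
    by_cases hxθ : (B : ℚ) / (2 ^ K * V) < θ
    · exact (Reach.done hV hG hxθ).mono (by omega)
    · have hxθ' := not_lt.1 hxθ
      have hxK := hθK.trans hxθ'
      have hx0 : 0 < (B : ℚ) / (2 ^ K * V) := lt_of_lt_of_le (by positivity) hxK
      obtain ⟨n, v, B', hn, hv0, hvG, hsum, hxn, hlt, hhalf, hor⟩ :=
        one_step g K V B hg hV hx0 h3 hxK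
      have hnew : (B' : ℚ) / (2 ^ K * ((v * V : ℕ) : ℚ)) < (1 / 2 : ℚ) ^ (E + (g - 1)) := by
        rcases hor with h | h
        · have h5 : ((B : ℚ) / (2 ^ K * V)) ^ 2 < ((1 / 2 : ℚ) ^ E) ^ 2 :=
            pow_lt_pow_left₀ h4 hx0.le (by norm_num)
          have h6 : ((1 / 2 : ℚ) ^ E) ^ 2 ≤ (1 / 2 : ℚ) ^ (E + (g - 1)) := by
            rw [← pow_mul]
            exact pow_le_pow_of_le_one hh0.le hh1 (by omega)
          linarith
        · have h5 : (B : ℚ) / (2 ^ K * V) / 2 ^ (g - 1) < (1 / 2 : ℚ) ^ E / 2 ^ (g - 1) :=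
            div_lt_div_of_pos_right h4 (by positivity)
          have h6 : (1 / 2 : ℚ) ^ E / 2 ^ (g - 1) = (1 / 2 : ℚ) ^ (E + (g - 1)) := by
            rw [pow_add, half_pow_eq (g - 1)]
            ring
          linarith
      have hvV : 0 < v * V := Nat.mul_pos hv0 hV
      have hGnew : GoodF g (v * V) := GoodF.mul hG hvG hv0
      have hlt1 : (B' : ℚ) / (2 ^ K * ((v * V : ℕ) : ℚ)) < 1 := by linarith
      have hrec := ih (E + (g - 1)) (v * V) B' hvV hGnew (by omega)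
        (by rw [Nat.succ_mul] at h2; omega) hlt1 hnew
      exact Reach.step hn hvG hsum hxn hlt hrec

lemma run1 (hg : 2 ≤ g) (hθK : (1 : ℚ) / 2 ^ K ≤ θ) (hE : (1 / 2 : ℚ) ^ ((g - 1) * (m + 1)) ≤ θ)
    (i : ℕ) : ∀ (E V B : ℕ), 0 < V → GoodF g V → g - 1 ≤ 2 ^ i * E →
      (B : ℚ) / (2 ^ K * V) < 1 → (B : ℚ) / (2 ^ K * V) < (1 / 2 : ℚ) ^ E →
      Reach g K θ (i + m) V B := by
  have hh0 : (0 : ℚ) < 1 / 2 := by norm_num
  have hh1 : (1 / 2 : ℚ) ≤ 1 := by norm_num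
  have hdirect : ∀ (E V B : ℕ), 0 < V → GoodF g V → g - 1 ≤ E →
      (B : ℚ) / (2 ^ K * V) < 1 → (B : ℚ) / (2 ^ K * V) < (1 / 2 : ℚ) ^ E →
      Reach g K θ m V B := by
    intro E V B hV hG h1 h3 h4
    refine run2 hg hθK hE m E V B hV hG h1 ?_ h3 h4
    have : (g - 1) * (m + 1) = m * (g - 1) + (g - 1) := by ring
    omega
  induction i with
  | zero =>
    intro E V B hV hG h1 h3 h4
    have h1' : g - 1 ≤ E := by simpa using h1
    have := hdirect E V B hV hG h1' h3 h4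
    simpa using this
  | succ i ih =>
    intro E V B hV hG h1 h3 h4
    by_cases hEg : g - 1 ≤ E
    · exact (hdirect E V B hV hG hEg h3 h4).mono (by omega)
    by_cases hxθ : (B : ℚ) / (2 ^ K * V) < θ
    · exact (Reach.done hV hG hxθ).mono (by omega)
    · have hxθ' := not_lt.1 hxθ
      have hxK := hθK.trans hxθ'
      have hx0 : 0 < (B : ℚ) / (2 ^ K * V) := lt_of_lt_of_le (by positivity) hxK
      obtain ⟨n, v, B', hn, hv0, hvG, hsum, hxn, hlt, hhalf, hor⟩ :=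
        one_step g K V B hg hV hx0 h3 hxK
      have hnew : (B' : ℚ) / (2 ^ K * ((v * V : ℕ) : ℚ)) < (1 / 2 : ℚ) ^ (2 * E) := by
        rcases hor with h | h
        · have h5 : ((B : ℚ) / (2 ^ K * V)) ^ 2 < ((1 / 2 : ℚ) ^ E) ^ 2 :=
            pow_lt_pow_left₀ h4 hx0.le (by norm_num)
          have h6 : ((1 / 2 : ℚ) ^ E) ^ 2 = (1 / 2 : ℚ) ^ (2 * E) := by
            rw [← pow_mul, mul_comm]
          linarith
        · have h5 : (B : ℚ) / (2 ^ K * V) / 2 ^ (g - 1) < (1 / 2 : ℚ) ^ E / 2 ^ (g - 1) :=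
            div_lt_div_of_pos_right h4 (by positivity)
          have h6 : (1 / 2 : ℚ) ^ E / 2 ^ (g - 1) = (1 / 2 : ℚ) ^ (E + (g - 1)) := by
            rw [pow_add, half_pow_eq (g - 1)]
            ring
          have h7 : (1 / 2 : ℚ) ^ (E + (g - 1)) ≤ (1 / 2 : ℚ) ^ (2 * E) :=
            pow_le_pow_of_le_one hh0.le hh1 (by omega)
          linarith
      have hvV : 0 < v * V := Nat.mul_pos hv0 hV
      have hGnew : GoodF g (v * V) := GoodF.mul hG hvG hv0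
      have hlt1 : (B' : ℚ) / (2 ^ K * ((v * V : ℕ) : ℚ)) < 1 := by linarith
      have h1' : g - 1 ≤ 2 ^ i * (2 * E) := by
        have e : 2 ^ i * (2 * E) = 2 ^ (i + 1) * E := by ring
        rw [e]
        exact h1
      have hrec := ih (2 * E) (v * V) B' hvV hGnew h1' hlt1 hnew
      have hst := Reach.step hn hvG hsum hxn hlt hrec
      exact hst.mono (by omega)

end Run

theorem stepA (g K u m : ℕ) (hg : 2 ≤ g) (a b : ℕ) (hb : b ≤ 2 ^ g) (ha : 1 ≤ a) (hab : a < b)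
    (θ : ℚ) (hθK : (1 : ℚ) / 2 ^ K ≤ θ) (hm : ((1 : ℚ) / 2 ^ (g - 1)) ^ (m + 1) ≤ θ) (hu : g ≤ 2 ^ u) :
    ∃ (T : Finset ℕ) (V B : ℕ), 0 < V ∧ (∀ n ∈ T, 0 < n) ∧ #T ≤ u + 2 + m ∧ GoodF g V ∧
      V ≤ 2 ^ (g * (u + 3 + m)) ∧
      (a : ℚ) / b = ∑ n ∈ T, (1 / (n : ℚ)) + (B : ℚ) / (2 ^ K * V) ∧ (B : ℚ) / (2 ^ K * V) < θ := by
  have hb0 : 0 < b := by omega
  have hbQ : (0 : ℚ) < b := by exact_mod_cast hb0
  have hE : (1 / 2 : ℚ) ^ ((g - 1) * (m + 1)) ≤ θ := by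
    have e : (1 / 2 : ℚ) ^ ((g - 1) * (m + 1)) = ((1 : ℚ) / 2 ^ (g - 1)) ^ (m + 1) := by
      rw [pow_mul, half_pow_eq]
    rw [e]
    exact hm
  have hGb : GoodF g b := by
    have := GoodF.mul (goodF_one g) hb hb0
    simpa using this
  have hxe : ((a * 2 ^ K : ℕ) : ℚ) / (2 ^ K * b) = (a : ℚ) / b := by
    push_cast
    field_simp
  have hlt1 : (a : ℚ) / b < 1 := by
    rw [div_lt_one hbQ]
    exact_mod_cast hab
  -- the whole run
  have hreach : Reach g K θ (u + m + 1) b (a * 2 ^ K) := by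
    by_cases hxθ : ((a * 2 ^ K : ℕ) : ℚ) / (2 ^ K * b) < θ
    · exact (Reach.done hb0 hGb hxθ).mono (by omega)
    · have hxθ' := not_lt.1 hxθ
      have hxK := hθK.trans hxθ'
      have hx0 : 0 < ((a * 2 ^ K : ℕ) : ℚ) / (2 ^ K * b) := lt_of_lt_of_le (by positivity) hxK
      have hx1 : ((a * 2 ^ K : ℕ) : ℚ) / (2 ^ K * b) < 1 := by rw [hxe]; exact hlt1
      obtain ⟨n, v, B', hn, hv0, hvG, hsum, hxn, hlt, hhalf, hor⟩ :=
        one_step g K b (a * 2 ^ K) hg hb0 hx0 hx1 hxK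
      have hvV : 0 < v * b := Nat.mul_pos hv0 hb0
      have hGnew : GoodF g (v * b) := GoodF.mul hGb hvG hv0
      have hnew : (B' : ℚ) / (2 ^ K * ((v * b : ℕ) : ℚ)) < (1 / 2 : ℚ) ^ 1 := by
        rw [pow_one]
        linarith
      have hlt1' : (B' : ℚ) / (2 ^ K * ((v * b : ℕ) : ℚ)) < 1 := by
        norm_num at hnew ⊢
        linarith
      have h1' : g - 1 ≤ 2 ^ u * 1 := by omega
      have hrec := run1 (m := m) hg hθK hE u 1 (v * b) B' hvV hGnew h1' hlt1' hnew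
      exact Reach.step hn hvG hsum hxn hlt hrec
  obtain ⟨T, V', B', h1, h2, h3, h4, h5, h6, h7⟩ := hreach
  refine ⟨T, V', B', h1, fun n hn => (h5 n hn).1, by omega, h2, ?_, ?_, h7⟩
  · calc V' ≤ b * 2 ^ (g * (u + m + 1)) := h3
      _ ≤ 2 ^ g * 2 ^ (g * (u + m + 1)) := Nat.mul_le_mul_right _ hb
      _ = 2 ^ (g * (u + m + 2)) := by
        rw [← pow_add]
        congr 1
        ring
      _ ≤ 2 ^ (g * (u + 3 + m)) := by
        apply Nat.pow_le_pow_right (by norm_num)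
        apply Nat.mul_le_mul_left
        omega
  · rw [← hxe]
    exact h6

end Vale.Agent.Lib.P012c
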