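import Mathlib
import Vale.Agent.Lib.P012c.Digits
import Vale.Agent.Lib.P012c.StepA

open Finset
namespace Vale.Agent.Lib.P012c
open Vale.Agent.Lib.P012

lemma Eff.mono {R R' r : ℕ} (h : R ∣ R') (he : Eff R r) : Eff R' r := by
  obtain ⟨d, hd, hr⟩ := he
  exact ⟨d, fun i => ⟨(hd i).1, (hd i).2.trans h⟩, hr⟩

lemma SI.mono {s R R' : ℕ} (h : R ∣ R') (hs : SI s R) : SI s R' := by
  intro e he1 he2 y hy1 hy2
  obtain ⟨r, h1, h2, h3, h4⟩ := hs e he1 he2 y hy1 hy2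
  exact ⟨r, h1, h2, h3, h4.mono h⟩

lemma GoodF.two_pow_mul {g F : ℕ} (hg : 1 ≤ g) (h : GoodF g F) (k : ℕ) : GoodF g (2 ^ k * F) := by
  induction k with
  | zero => simpa using h
  | succ k ih =>
    have e : 2 ^ (k + 1) * F = 2 * (2 ^ k * F) := by ring
    rw [e]
    refine GoodF.mul ih ?_ (by norm_num)
    calc 2 = 2 ^ 1 := by norm_num
      _ ≤ 2 ^ g := Nat.pow_le_pow_right (by norm_num) hg

lemma sq_le_two_pow (S : ℕ) (hS : 7 ≤ S) : S ^ 2 ≤ 2 ^ (S - 1) := by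
  induction S, hS using Nat.le_induction with
  | base => norm_num
  | succ n hn ih =>
    have e : n + 1 - 1 = (n - 1) + 1 := by omega
    rw [e, pow_succ 2 (n - 1)]
    nlinarith [ih, hn]

lemma sum_two_pow (n : ℕ) : ∑ s ∈ Finset.range n, 2 ^ (s + 4) + 16 = 2 ^ (n + 4) := by
  induction n with
  | zero => norm_num
  | succ n ih =>
    rw [Finset.sum_range_succ]
    have e : 2 ^ (n + 1 + 4) = 2 * 2 ^ (n + 4) := by ring
    rw [e]
    linarith

lemma R_bound (s : ℕ) (H : Finset ℕ) (hH : ∀ p ∈ H, p.Prime ∧ p ≤ 2 ^ (2 * s + 3))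
    (hc : #H = 2 ^ (s + 3)) :
    (∏ p ∈ H, p) ^ 2 ≤ 2 ^ ((2 * s + 3) * 2 ^ (s + 4)) := by
  have h := prod_le_two_pow (H := H) (B := 2 * s + 3) (fun p hp => (hH p hp).2)
  calc (∏ p ∈ H, p) ^ 2 ≤ (2 ^ ((2 * s + 3) * #H)) ^ 2 := Nat.pow_le_pow_left h 2
    _ = 2 ^ ((2 * s + 3) * 2 ^ (s + 4)) := by
      rw [hc, ← pow_mul]
      congr 1
      ring

lemma prod_bound (s0 S : ℕ) (R : ℕ → ℕ)
    (h : ∀ s ∈ Finset.Icc s0 S, R s ≤ 2 ^ ((2 * s + 3) * 2 ^ (s + 4))) :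
    ∏ s ∈ Finset.Icc s0 S, R s ≤ 2 ^ ((2 * S + 3) * 2 ^ (S + 5)) := by
  calc ∏ s ∈ Finset.Icc s0 S, R s
      ≤ ∏ s ∈ Finset.Icc s0 S, 2 ^ ((2 * s + 3) * 2 ^ (s + 4)) := Finset.prod_le_prod' h
    _ = 2 ^ (∑ s ∈ Finset.Icc s0 S, (2 * s + 3) * 2 ^ (s + 4)) := Finset.prod_pow_eq_pow_sum _ _ _
    _ ≤ 2 ^ ((2 * S + 3) * 2 ^ (S + 5)) := by
      apply Nat.pow_le_pow_right (by norm_num)
      calc ∑ s ∈ Finset.Icc s0 S, (2 * s + 3) * 2 ^ (s + 4)
          ≤ ∑ s ∈ Finset.Icc s0 S, (2 * S + 3) * 2 ^ (s + 4) := by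
            apply Finset.sum_le_sum
            intro s hs
            apply Nat.mul_le_mul_right
            have := (Finset.mem_Icc.1 hs).2
            omega
        _ = (2 * S + 3) * ∑ s ∈ Finset.Icc s0 S, 2 ^ (s + 4) := (Finset.mul_sum _ _ _).symm
        _ ≤ (2 * S + 3) * 2 ^ (S + 5) := by
            apply Nat.mul_le_mul_left
            have h1 : ∑ s ∈ Finset.Icc s0 S, 2 ^ (s + 4) ≤ ∑ s ∈ Finset.range (S + 1), 2 ^ (s + 4) := by
              apply Finset.sum_le_sum_of_subset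
              intro s hs
              have := (Finset.mem_Icc.1 hs).2
              exact Finset.mem_range.2 (by omega)
            have h2 := sum_two_pow (S + 1)
            have e : 2 ^ (S + 1 + 4) = 2 ^ (S + 5) := by ring_nf
            omega

/-- The bookkeeping numbers. -/
def nn (S : ℕ) : ℕ := 64 * (193 * S + 291)
def mA (S : ℕ) : ℕ := 64 * (2 * S + 3)
def cc (s0 S : ℕ) : ℕ := 8 * nn S + (2 ^ (2 ^ s0) + 512 * (S + 1 - s0))
def mm (s0 S : ℕ) : ℕ := 2 * (S + 2 + mA S + 2 * cc s0 S) + 2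
def LR (S : ℕ) : ℕ := (2 * S + 3) * 2 ^ (S + 5)

/-- The core: once the modulus `R0` is available, `a/b` is a sum of few distinct unit fractions. -/
theorem core (s0 S R0 a b : ℕ) (hs0 : 12 ≤ s0) (hsS : s0 ≤ S) (hR0 : 0 < R0)
    (hR0le : R0 ≤ 2 ^ LR S) (hSI : ∀ s, s0 ≤ s → s ≤ S → SI s R0)
    (hb : b ≤ 2 ^ (2 ^ S)) (ha : 1 ≤ a) (hab : a < b) (hmS : mm s0 S ≤ 2 ^ (S - 1)) :
    ∃ T' : Finset ℕ, (∀ n ∈ T', 0 < n) ∧ #T' ≤ S + 2 + mA S + 2 * cc s0 S ∧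
      ∑ n ∈ T', (1 / (n : ℚ)) = (a : ℚ) / b := by
  have hS12 : 12 ≤ S := le_trans hs0 hsS
  set g := 2 ^ S with hg_def
  have hp1 : 1 ≤ 2 ^ (S - 1) := Nat.one_le_two_pow
  have hgp : g = 2 * 2 ^ (S - 1) := by
    rw [hg_def, ← pow_succ']
    congr 1
    omega
  have hg : 2 ≤ g := by omega
  set m := mm s0 S with hm_def
  set K := m + LR S with hK_def
  have h2Kpos : (0 : ℚ) < 2 ^ K := by positivity
  have hR0Q : (0 : ℚ) < R0 := by exact_mod_cast hR0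
  have hmQ : (0 : ℚ) < 2 ^ m := by positivity
  have hR0leQ : (R0 : ℚ) ≤ 2 ^ LR S := by exact_mod_cast hR0le
  set θ : ℚ := 2 ^ (2 ^ (S + 1)) / (2 ^ m * R0) with hθ_def
  have hθK : (1 : ℚ) / 2 ^ K ≤ θ := by
    rw [hθ_def, div_le_div_iff₀ h2Kpos (by positivity)]
    have h1 : (1 : ℚ) ≤ 2 ^ (2 ^ (S + 1)) := one_le_pow₀ (by norm_num)
    have h2 : (2 : ℚ) ^ m * R0 ≤ 2 ^ K := by
      rw [hK_def, pow_add]
      exact mul_le_mul_of_nonneg_left hR0leQ (by positivity)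
    nlinarith
  have hKle : K ≤ (g - 1) * (mA S + 1) := by
    have h1 : 2 ^ (S - 1) ≤ g - 1 := by omega
    have h2 : 2 ^ (S + 5) = 64 * 2 ^ (S - 1) := by
      have : S + 5 = (S - 1) + 6 := by omega
      rw [this, pow_add]
      ring
    calc K = m + (2 * S + 3) * (64 * 2 ^ (S - 1)) := by rw [hK_def, LR, h2]
      _ ≤ 2 ^ (S - 1) + (2 * S + 3) * (64 * 2 ^ (S - 1)) := by omega
      _ = 2 ^ (S - 1) * (mA S + 1) := by rw [mA]; ring
      _ ≤ (g - 1) * (mA S + 1) := Nat.mul_le_mul_right _ h1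
  have hmθ : ((1 : ℚ) / 2 ^ (g - 1)) ^ (mA S + 1) ≤ θ := by
    refine le_trans ?_ hθK
    rw [div_pow, one_pow, ← pow_mul]
    apply one_div_le_one_div_of_le h2Kpos
    exact pow_le_pow_right₀ (by norm_num) hKle
  obtain ⟨T, V, B, hV, hT, hTc, hVG, hVle, hEq, hlt⟩ :=
    stepA g K S (mA S) hg a b hb ha hab θ hθK hmθ le_rfl
  set F := 2 ^ LR S * V with hF_def
  have hF0 : 0 < F := by positivity
  have hFG : GoodF (2 ^ S) F := GoodF.two_pow_mul (by omega) hVG _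
  set A := B * R0 with hA_def
  have hVQ : (0 : ℚ) < V := by exact_mod_cast hV
  have hFQ : (F : ℚ) = 2 ^ LR S * V := by rw [hF_def]; push_cast; ring
  have hxA : (B : ℚ) / (2 ^ K * V) = (A : ℚ) / (2 ^ m * R0 * F) := by
    rw [hFQ, hA_def, hK_def, pow_add]
    push_cast
    field_simp
  have hA : A < 2 ^ (2 ^ (S + 1)) * F := by
    have h1 := hlt
    rw [hθ_def, div_lt_div_iff₀ (by positivity) (by positivity)] at h1
    have hK2 : (2 : ℚ) ^ K = 2 ^ m * 2 ^ LR S := by rw [hK_def, pow_add]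
    rw [hK2] at h1
    have h2 : ((B * R0 : ℕ) : ℚ) * 2 ^ m < ((2 ^ (2 ^ (S + 1)) * F : ℕ) : ℚ) * 2 ^ m := by
      rw [hF_def]
      push_cast
      calc (B : ℚ) * R0 * 2 ^ m = B * (2 ^ m * R0) := by ring
        _ < _ := h1
        _ = _ := by ring
    have h3 := lt_of_mul_lt_mul_right h2 hmQ.le
    exact_mod_cast h3
  have hFle : F ≤ 2 ^ (nn S * 2 ^ (S - 6)) := by
    have h1 : F ≤ 2 ^ LR S * 2 ^ (g * (S + 3 + mA S)) := Nat.mul_le_mul_left _ hVle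
    have h2 : LR S + g * (S + 3 + mA S) = nn S * 2 ^ (S - 6) := by
      have h3 : 2 ^ S = 64 * 2 ^ (S - 6) := by
        have : S = (S - 6) + 6 := by omega
        conv_lhs => rw [this, pow_add]
        ring
      have h4 : 2 ^ (S + 5) = 32 * 2 ^ S := by rw [pow_add]; ring
      rw [hg_def, LR, h4, mA, nn, h3]
      ring
    rw [← h2, pow_add]
    exact h1
  have hn : A < 2 ^ (nn S * 2 ^ (S - 6)) * 2 ^ (2 ^ (S + 1)) := by
    calc A < 2 ^ (2 ^ (S + 1)) * F := hA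
      _ ≤ 2 ^ (2 ^ (S + 1)) * 2 ^ (nn S * 2 ^ (S - 6)) := Nat.mul_le_mul_left _ hFle
      _ = _ := by ring
  have hrep : Rep m (cc s0 S) ((A : ℚ) / (2 ^ m * R0 * F)) :=
    digits s0 S m R0 F (nn S) hs0 hsS hR0 hF0 hSI hFG A hA hn
  have hmm : 2 * (#T + 2 * cc s0 S) + 2 ≤ m := by
    rw [hm_def, mm]
    omega
  obtain ⟨T', hT'pos, hT'c, hT'sum⟩ := dedup m (cc s0 S) T hT _ hmm hrep
  refine ⟨T', hT'pos, by omega, ?_⟩
  rw [hT'sum, ← hxA, ← hEq]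

lemma S_le_LL (S b : ℕ) (hS : 4 ≤ S) (hb : 2 ^ (2 ^ (S - 1)) < b) :
    (S : ℝ) ≤ 3 * Real.log (Real.log b) := by
  have hl2 := Real.log_two_gt_d9
  have hl2' := Real.log_two_lt_d9
  have hb1 : ((2 : ℝ) ^ (2 ^ (S - 1))) < b := by exact_mod_cast hb
  have hlog : ((2 ^ (S - 1) : ℕ) : ℝ) * Real.log 2 < Real.log b := by
    have := Real.log_lt_log (by positivity) hb1
    rwa [Real.log_pow] at this
  have hpos : (0 : ℝ) < ((2 ^ (S - 1) : ℕ) : ℝ) * Real.log 2 := by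
    have : (0 : ℝ) < Real.log 2 := by linarith
    positivity
  have hll := Real.log_lt_log hpos hlog
  have h1 : Real.log (((2 ^ (S - 1) : ℕ) : ℝ) * Real.log 2) =
      ((S : ℝ) - 1) * Real.log 2 + Real.log (Real.log 2) := by
    rw [Real.log_mul (by positivity) (by linarith)]
    push_cast
    rw [Real.log_pow]
    have : ((S - 1 : ℕ) : ℝ) = (S : ℝ) - 1 := by
      rw [Nat.cast_sub (by omega)]
      simp
    rw [this]
  have h2 : -Real.log 2 ≤ Real.log (Real.log 2) := by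
    have h3 : Real.log (1 / 2) ≤ Real.log (Real.log 2) :=
      Real.log_le_log (by norm_num) (by linarith)
    have h4 : Real.log (1 / 2) = -Real.log 2 := by
      rw [one_div, Real.log_inv]
    linarith
  have hS' : (4 : ℝ) ≤ S := by exact_mod_cast hS
  have h5 : ((S : ℝ) - 2) * 0.69 ≤ ((S : ℝ) - 2) * Real.log 2 :=
    mul_le_mul_of_nonneg_left (by linarith) (by linarith)
  rw [h1] at hll
  nlinarith

theorem assembly (s0 : ℕ) (hs0 : 12 ≤ s0)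
    (hSI : ∀ s, s0 ≤ s → ∃ H : Finset ℕ, (∀ p ∈ H, p.Prime ∧ p ≤ 2 ^ (2 * s + 3)) ∧
      #H = 2 ^ (s + 3) ∧ SI s ((∏ p ∈ H, p) ^ 2)) :
    ∃ b₀ : ℕ, ∀ a b : ℕ, b₀ ≤ b → 1 ≤ a → a < b → ∃ S : Finset ℕ, (∀ n ∈ S, 2 ≤ n) ∧
      (S.card : ℝ) ≤ 1000000 * Real.log (Real.log b) ∧ ∑ n ∈ S, (1 / (n : ℚ)) = (a : ℚ) / b := by
  classical
  choose! H hH using hSI
  set C0 := 2 ^ (2 ^ s0) with hC0
  have hC0s : s0 < C0 := by
    have h1 : s0 < 2 ^ s0 := Nat.lt_two_pow_self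
    have h2 : 2 ^ s0 < 2 ^ (2 ^ s0) := Nat.lt_two_pow_self
    omega
  set S1 := 397570 + (598406 + 4 * C0) + 8 + 299202 + 2 * C0 with hS1
  refine ⟨2 ^ (2 ^ S1) + 1, ?_⟩
  intro a b hb ha hab
  have hex : ∃ S, b ≤ 2 ^ (2 ^ S) := by
    refine ⟨b, ?_⟩
    have h1 : b < 2 ^ b := Nat.lt_two_pow_self
    have h2 : 2 ^ b < 2 ^ (2 ^ b) := Nat.lt_two_pow_self
    omega
  set S := Nat.find hex with hS_def
  have hSb : b ≤ 2 ^ (2 ^ S) := Nat.find_spec hex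
  have hSS1 : S1 < S := by
    by_contra hcon
    have h1 : S ≤ S1 := by omega
    have h2 : 2 ^ (2 ^ S) ≤ 2 ^ (2 ^ S1) :=
      Nat.pow_le_pow_right (by norm_num) (Nat.pow_le_pow_right (by norm_num) h1)
    omega
  have hSmin : 2 ^ (2 ^ (S - 1)) < b := by
    have := Nat.find_min hex (m := S - 1) (by omega)
    omega
  have hsS : s0 ≤ S := by omega
  -- the modulus
  let R : ℕ → ℕ := fun s => (∏ p ∈ H s, p) ^ 2
  set R0 := ∏ s ∈ Finset.Icc s0 S, R s with hR0_def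
  have hRpos : ∀ s ∈ Finset.Icc s0 S, 0 < R s := by
    intro s hs
    have h := (hH s (Finset.mem_Icc.1 hs).1).1
    exact pow_pos (prod_pos_of_prime (fun p hp => (h p hp).1)) 2
  have hR0 : 0 < R0 := Finset.prod_pos hRpos
  have hR0le : R0 ≤ 2 ^ LR S := by
    apply prod_bound
    intro s hs
    obtain ⟨h1, h2, _⟩ := hH s (Finset.mem_Icc.1 hs).1
    exact R_bound s (H s) h1 h2
  have hSI' : ∀ s, s0 ≤ s → s ≤ S → SI s R0 := by
    intro s h1 h2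
    exact (hH s h1).2.2.mono (Finset.dvd_prod_of_mem R (Finset.mem_Icc.2 ⟨h1, h2⟩))
  -- arithmetic
  have hmmle : mm s0 S ≤ 397570 * S + (598406 + 4 * C0) := by
    simp only [mm, cc, mA, nn]
    have : 2 ^ (2 ^ s0) = C0 := hC0.symm
    rw [this]
    omega
  have hmS : mm s0 S ≤ 2 ^ (S - 1) := by
    have h1 := sq_le_two_pow S (by omega)
    have h2 : 397570 + (598406 + 4 * C0) ≤ S := by omega
    have h3 : 397570 * S + (598406 + 4 * C0) ≤ S ^ 2 := by nlinarith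
    omega
  obtain ⟨T', hT'pos, hT'c, hT'sum⟩ :=
    core s0 S R0 a b hs0 hsS hR0 hR0le hSI' hSb ha hab hmS
  have hW : S + 2 + mA S + 2 * cc s0 S ≤ 198786 * S := by
    simp only [cc, mA, nn]
    have : 2 ^ (2 ^ s0) = C0 := hC0.symm
    rw [this]
    omega
  have hbpos : (0 : ℚ) < b := by
    have : 0 < b := by omega
    exact_mod_cast this
  refine ⟨T', ?_, ?_, hT'sum⟩
  · intro n hn
    have h0 := hT'pos n hn
    by_contra hcon
    have h1 : n = 1 := by omega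
    subst h1
    have h2 : (1 / ((1 : ℕ) : ℚ)) ≤ ∑ n ∈ T', (1 / (n : ℚ)) :=
      Finset.single_le_sum (f := fun n : ℕ => (1 / (n : ℚ))) (fun i _ => by positivity) hn
    rw [hT'sum] at h2
    have h3 : (a : ℚ) / b < 1 := by
      rw [div_lt_one hbpos]
      exact_mod_cast hab
    norm_num at h2
    linarith
  · have hLL := S_le_LL S b (by omega) hSmin
    have hcard : (#T' : ℝ) ≤ 198786 * (S : ℝ) := by
      have : #T' ≤ 198786 * S := le_trans hT'c hW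
      exact_mod_cast this
    have hSpos : (0 : ℝ) ≤ S := Nat.cast_nonneg _
    nlinarith

end Vale.Agent.Lib.P012c
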