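import Mathlib
import Vale.Agent.Lib.P012.Stage
import Vale.Agent.Lib.P012.Bilinear
import Vale.Agent.Lib.P012.Cover

open Finset

namespace Vale.Agent.Lib.P012c

open Vale.Agent.Lib.P012

lemma sum_powerset_split {β : Type*} [AddCommMonoid β] (H H' : Finset ℕ) (hH' : H' ⊆ H)
    (g : Finset ℕ → β) :
    ∑ T ∈ H.powerset, g T = ∑ T2 ∈ (H \ H').powerset, ∑ T1 ∈ H'.powerset, g (T1 ∪ T2) := by
  rw [← Finset.sum_product']
  refine Finset.sum_nbij' (fun T => (T \ H', T ∩ H')) (fun p => p.2 ∪ p.1) ?_ ?_ ?_ ?_ ?_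
  · intro T hT
    simp only [Finset.mem_product, Finset.mem_powerset] at hT ⊢
    exact ⟨Finset.sdiff_subset_sdiff hT (le_refl _), Finset.inter_subset_right⟩
  · rintro ⟨T2, T1⟩ hp
    simp only [Finset.mem_product, Finset.mem_powerset] at hp ⊢
    exact Finset.union_subset (hp.2.trans hH') (hp.1.trans Finset.sdiff_subset)
  · intro T _
    ext a
    simp only [mem_union, mem_inter, mem_sdiff]
    tauto
  · rintro ⟨T2, T1⟩ hp
    simp only [Finset.mem_product, Finset.mem_powerset] at hp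
    have h1 : ∀ a, a ∈ T2 → a ∈ H ∧ a ∉ H' := fun a ha => by
      simpa only [mem_sdiff] using hp.1 ha
    have h2 : ∀ a, a ∈ T1 → a ∈ H' := fun a ha => hp.2 ha
    simp only [Prod.mk.injEq]
    constructor
    · ext a
      simp only [mem_sdiff, mem_union]
      constructor
      · rintro ⟨h | h, h'⟩
        · exact absurd (h2 a h) h'
        · exact h
      · intro h
        exact ⟨Or.inr h, (h1 a h).2⟩
    · ext a
      simp only [mem_inter, mem_union]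
      constructor
      · rintro ⟨h | h, h'⟩
        · exact h
        · exact absurd h' (h1 a h).2
      · intro h
        exact ⟨Or.inl h, h2 a h⟩
  · intro T _
    have : T ∩ H' ∪ T \ H' = T := by
      ext a
      simp only [mem_union, mem_inter, mem_sdiff]
      tauto
    simp only [this]

lemma prod_injOn {H : Finset ℕ} (hH : ∀ p ∈ H, p.Prime) :
    Set.InjOn (fun T : Finset ℕ => ∏ p ∈ T, p) (H.powerset : Set (Finset ℕ)) := by
  intro T hT T' hT' h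
  have hT1 : ∀ p ∈ T, p.Prime := fun p hp => hH p (Finset.mem_powerset.mp (Finset.mem_coe.mp hT) hp)
  have hT2 : ∀ p ∈ T', p.Prime :=
    fun p hp => hH p (Finset.mem_powerset.mp (Finset.mem_coe.mp hT') hp)
  have h' : ∏ p ∈ T, p = ∏ p ∈ T', p := h
  rw [← Nat.primeFactors_prod hT1, ← Nat.primeFactors_prod hT2, h']

lemma sum_sp {β : Type*} [AddCommMonoid β] {H : Finset ℕ} (hH : ∀ p ∈ H, p.Prime) (f : ℕ → β) :
    ∑ x ∈ sp H, f x = ∑ T ∈ H.powerset, f (∏ p ∈ T, p) := by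
  unfold sp
  exact Finset.sum_image (prod_injOn hH)

lemma sum_sp_split {β : Type*} [AddCommMonoid β] {H H' : Finset ℕ} (hH : ∀ p ∈ H, p.Prime)
    (hH' : H' ⊆ H) (f : ℕ → β) :
    ∑ x ∈ sp H, f x = ∑ x2 ∈ sp (H \ H'), ∑ x1 ∈ sp H', f (x1 * x2) := by
  rw [sum_sp hH, sum_powerset_split H H' hH', sum_sp (fun p hp => hH p (mem_sdiff.mp hp).1)]
  apply Finset.sum_congr rfl
  intro T2 hT2
  rw [sum_sp (fun p hp => hH p (hH' hp))]
  apply Finset.sum_congr rfl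
  intro T1 hT1
  rw [Finset.prod_union]
  rw [Finset.disjoint_left]
  intro a ha ha'
  have h1 := Finset.mem_powerset.mp hT1 ha
  have h2 := Finset.mem_powerset.mp hT2 ha'
  exact (Finset.mem_sdiff.mp h2).2 h1

lemma card_sp_split {H H' : Finset ℕ} (hH : ∀ p ∈ H, p.Prime) (hH' : H' ⊆ H) :
    #(sp H) = #(sp H') * #(sp (H \ H')) := by
  rw [card_sp hH, card_sp (fun p hp => hH p (hH' hp)),
    card_sp (fun p hp => hH p (mem_sdiff.mp hp).1), ← pow_add, add_comm,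
    Finset.card_sdiff_add_card_eq_card hH']

lemma sp_coprime {H : Finset ℕ} {r : ℕ} (hcop : ∀ p ∈ H, Nat.Coprime p r) {x : ℕ}
    (hx : x ∈ sp H) : Nat.Coprime x r := by
  unfold sp at hx
  obtain ⟨T, hT, rfl⟩ := Finset.mem_image.mp hx
  apply Nat.Coprime.prod_left
  intro p hp
  exact hcop p (Finset.mem_powerset.mp hT hp)

lemma inner_bound {r : ℕ} [NeZero r] (ψ : AddChar (ZMod r) ℂ) (hψ : ψ.IsPrimitive) (u : ZMod r)
    (c : ℕ) (hc : Nat.Coprime c r) (A : Finset ℕ) (r' : ℕ) (hr' : r' = r / Nat.gcd u.val r) :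
    ‖∑ x ∈ A, ∑ y ∈ A, ψ (u * c * x * y)‖ ^ 2
      ≤ (r' : ℝ) * ((#{p ∈ A ×ˢ A | p.1 ≡ p.2 [MOD r']} : ℕ) : ℝ) ^ 2 := by
  classical
  set g := Nat.gcd u.val r with hg
  have hr0 : 0 < r := Nat.pos_of_ne_zero (NeZero.ne r)
  have hg0 : 0 < g := Nat.gcd_pos_of_pos_right _ hr0
  have hgr : g ∣ r := Nat.gcd_dvd_right _ _
  have hrfac : g * r' = r := by rw [hr']; exact Nat.mul_div_cancel' hgr
  set v := u.val / g with hvdef
  have hv : u.val = g * v := (Nat.mul_div_cancel' (Nat.gcd_dvd_left _ _)).symm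
  have hcopv : Nat.Coprime v r' := by
    rw [hr', hvdef, hg]
    exact Nat.coprime_div_gcd_div_gcd hg0
  have hr'0 : 0 < r' := by
    rcases Nat.eq_zero_or_pos r' with h | h
    · rw [h] at hrfac; omega
    · exact h
  have hu0 : u * ((r' : ℕ) : ZMod r) = 0 := by
    have h1 : ((u.val * r' : ℕ) : ZMod r) = 0 := by
      have : u.val * r' = v * r := by
        rw [hv, ← hrfac]
        ring
      rw [this]
      simp
    push_cast at h1
    rwa [ZMod.natCast_zmod_val] at h1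
  have hann : g ≤ annCard (u * (c : ZMod r)) := by
    have := Finset.card_le_card_of_injOn (s := Finset.range g)
      (t := (Finset.univ : Finset (ZMod r)).filter (fun w => (u * (c : ZMod r)) * w = 0))
      (fun k => ((r' * k : ℕ) : ZMod r)) ?_ ?_
    · simpa [annCard] using this
    · intro k _
      refine Finset.mem_coe.mpr (Finset.mem_filter.mpr ⟨Finset.mem_univ _, ?_⟩)
      push_cast
      calc u * (c : ZMod r) * ((r' : ZMod r) * (k : ZMod r))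
          = (u * (r' : ZMod r)) * ((c : ZMod r) * (k : ZMod r)) := by ring
        _ = 0 := by rw [hu0]; ring
    · intro k hk k' hk' hkk
      have hk : k < g := by simpa using hk
      have hk' : k' < g := by simpa using hk'
      have h := (ZMod.natCast_eq_natCast_iff' _ _ _).mp hkk
      have hlt : r' * k < r := by
        rw [← hrfac, mul_comm g r']
        exact Nat.mul_lt_mul_of_pos_left hk hr'0
      have hlt' : r' * k' < r := by
        rw [← hrfac, mul_comm g r']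
        exact Nat.mul_lt_mul_of_pos_left hk' hr'0
      rw [Nat.mod_eq_of_lt hlt, Nat.mod_eq_of_lt hlt'] at h
      exact Nat.eq_of_mul_eq_mul_left hr'0 h
  have hen : energy (u * (c : ZMod r)) A ≤ #{p ∈ A ×ˢ A | p.1 ≡ p.2 [MOD r']} := by
    unfold energy
    apply Finset.card_le_card
    intro p hp
    obtain ⟨hp1, hp2⟩ := Finset.mem_filter.mp hp
    refine Finset.mem_filter.mpr ⟨hp1, ?_⟩
    have h1 : (((u.val : ℤ) * (c : ℤ) * ((p.1 : ℤ) - (p.2 : ℤ)) : ℤ) : ZMod r) = 0 := by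
      push_cast
      rw [ZMod.natCast_zmod_val]
      exact hp2
    have h2 := (ZMod.intCast_zmod_eq_zero_iff_dvd _ _).mp h1
    have h3 : ((g : ℤ) * (r' : ℤ)) ∣ (g : ℤ) * ((v : ℤ) * (c : ℤ) * ((p.1 : ℤ) - (p.2 : ℤ))) := by
      have e1 : ((g : ℤ) * (r' : ℤ)) = (r : ℤ) := by exact_mod_cast hrfac
      have e2 : (g : ℤ) * ((v : ℤ) * (c : ℤ) * ((p.1 : ℤ) - (p.2 : ℤ)))
          = (u.val : ℤ) * (c : ℤ) * ((p.1 : ℤ) - (p.2 : ℤ)) := by
        rw [hv]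
        push_cast
        ring
      rw [e1, e2]
      exact h2
    have hg0' : (g : ℤ) ≠ 0 := by exact_mod_cast hg0.ne'
    have h4 : (r' : ℤ) ∣ (v : ℤ) * (c : ℤ) * ((p.1 : ℤ) - (p.2 : ℤ)) :=
      (mul_dvd_mul_iff_left hg0').mp h3
    have hcopc : Nat.Coprime c r' := Nat.Coprime.coprime_dvd_right ⟨g, by rw [← hrfac]; ring⟩ hc
    have ic1 : IsCoprime (r' : ℤ) (v : ℤ) := Nat.isCoprime_iff_coprime.mpr hcopv.symm
    have ic2 : IsCoprime (r' : ℤ) (c : ℤ) := Nat.isCoprime_iff_coprime.mpr hcopc.symm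
    have h5 : (r' : ℤ) ∣ (c : ℤ) * ((p.1 : ℤ) - (p.2 : ℤ)) := by
      rw [mul_assoc] at h4
      exact ic1.dvd_of_dvd_mul_left h4
    have h6 : (r' : ℤ) ∣ ((p.1 : ℤ) - (p.2 : ℤ)) := ic2.dvd_of_dvd_mul_left h5
    exact ((Nat.modEq_iff_dvd).mpr h6).symm
  have hb := bilinear_bound ψ hψ (u * (c : ZMod r)) A A
  rw [ZMod.card] at hb
  set I := ‖∑ x ∈ A, ∑ y ∈ A, ψ (u * (c : ZMod r) * x * y)‖ with hI
  set E := #{p ∈ A ×ˢ A | p.1 ≡ p.2 [MOD r']} with hE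
  have hgR : (0 : ℝ) < g := by exact_mod_cast hg0
  have hI2 : 0 ≤ I ^ 2 := by positivity
  have hrR : (r : ℝ) = g * r' := by exact_mod_cast hrfac.symm
  have hannR : (g : ℝ) ≤ annCard (u * (c : ZMod r)) := by exact_mod_cast hann
  have henR : (energy (u * (c : ZMod r)) A : ℝ) ≤ E := by exact_mod_cast hen
  have hen0 : (0 : ℝ) ≤ energy (u * (c : ZMod r)) A := by positivity
  have key : (g : ℝ) * I ^ 2 ≤ g * ((r' : ℝ) * (E : ℝ) ^ 2) := by
    calc (g : ℝ) * I ^ 2 ≤ (annCard (u * (c : ZMod r)) : ℝ) * I ^ 2 := by gcongr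
      _ ≤ (r : ℝ) * energy (u * (c : ZMod r)) A * energy (u * (c : ZMod r)) A := hb
      _ ≤ (r : ℝ) * E * E :=
          mul_le_mul (mul_le_mul_of_nonneg_left henR (Nat.cast_nonneg r)) henR hen0
            (mul_nonneg (Nat.cast_nonneg r) (Nat.cast_nonneg E))
      _ = _ := by rw [hrR]; ring
  exact le_of_mul_le_mul_left key hgR

/-- The bound for a single nonzero frequency. -/
lemma term_bound {r : ℕ} [NeZero r] (ψ : AddChar (ZMod r) ℂ) (hψ : ψ.IsPrimitive)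
    (H : Finset ℕ) (hHp : ∀ p ∈ H, p.Prime) (hcop : ∀ p ∈ H, Nat.Coprime p r) (H1 : Finset ℕ)
    (hH1 : H1 ⊆ H) (u : ZMod r) (r' : ℕ) (hr' : r' = r / Nat.gcd u.val r) (t : ℕ)
    (hrt : r' < 65536 ^ (t + 1))
    (hen : 2 ^ (14 * t + 8) * #{p ∈ sp H1 ×ˢ sp H1 | p.1 ≡ p.2 [MOD r']} ≤ #(sp H1) ^ 2) :
    ‖∑ x ∈ sp H, ∑ z ∈ sp H, ψ (u * x * z)‖ ^ 8 * (r' : ℝ) ^ 3 ≤ (#(sp H) : ℝ) ^ 16 * 2 ^ 48 := by
  classical
  have hcard := card_sp_split hHp hH1
  set A := sp H with hA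
  set A1 := sp H1 with hA1
  set A2 := sp (H \ H1) with hA2
  set E := #{p ∈ A1 ×ˢ A1 | p.1 ≡ p.2 [MOD r']} with hE
  have hcopA2 : ∀ x ∈ A2, Nat.Coprime x r := fun x hx =>
    sp_coprime (fun p hp => hcop p (mem_sdiff.mp hp).1) hx
  set I : ℕ → ℕ → ℂ := fun x2 z2 => ∑ x1 ∈ A1, ∑ z1 ∈ A1,
    ψ (u * ((x2 * z2 : ℕ) : ZMod r) * (x1 : ZMod r) * (z1 : ZMod r)) with hI
  -- the decomposition
  have hdec : ∑ x ∈ A, ∑ z ∈ A, ψ (u * x * z) = ∑ x2 ∈ A2, ∑ z2 ∈ A2, I x2 z2 := by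
    have h1 : ∀ x : ℕ, ∑ z ∈ A, ψ (u * x * z)
        = ∑ z2 ∈ A2, ∑ z1 ∈ A1, ψ (u * (x : ZMod r) * ((z1 * z2 : ℕ) : ZMod r)) := fun x =>
      sum_sp_split hHp hH1 (fun z => ψ (u * (x : ZMod r) * (z : ZMod r)))
    have h2 := sum_sp_split (β := ℂ) hHp hH1 (fun x => ∑ z ∈ A, ψ (u * (x : ZMod r) * (z : ZMod r)))
    rw [h2]
    apply Finset.sum_congr rfl
    intro x2 _
    rw [Finset.sum_congr rfl (fun x1 _ => h1 (x1 * x2)), Finset.sum_comm]
    apply Finset.sum_congr rfl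
    intro z2 _
    simp only [hI]
    apply Finset.sum_congr rfl
    intro x1 _
    apply Finset.sum_congr rfl
    intro z1 _
    congr 1
    push_cast
    ring
  set W : ℝ := (r' : ℝ) * ((E : ℕ) : ℝ) ^ 2 with hW
  have hW0 : 0 ≤ W := by positivity
  have hIb : ∀ x2 ∈ A2, ∀ z2 ∈ A2, ‖I x2 z2‖ ≤ Real.sqrt W := by
    intro x2 hx2 z2 hz2
    apply Real.le_sqrt_of_sq_le
    exact inner_bound ψ hψ u (x2 * z2) (Nat.Coprime.mul_left (hcopA2 x2 hx2) (hcopA2 z2 hz2)) A1 r' hr'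
  have hnorm : ‖∑ x ∈ A, ∑ z ∈ A, ψ (u * x * z)‖ ≤ ((#A2 : ℝ) * #A2) * Real.sqrt W := by
    rw [hdec]
    calc ‖∑ x2 ∈ A2, ∑ z2 ∈ A2, I x2 z2‖ ≤ ∑ x2 ∈ A2, ‖∑ z2 ∈ A2, I x2 z2‖ := norm_sum_le _ _
      _ ≤ ∑ x2 ∈ A2, ∑ z2 ∈ A2, ‖I x2 z2‖ := Finset.sum_le_sum fun _ _ => norm_sum_le _ _
      _ ≤ ∑ _x2 ∈ A2, ∑ _z2 ∈ A2, Real.sqrt W :=
          Finset.sum_le_sum fun x2 hx2 => Finset.sum_le_sum fun z2 hz2 => hIb x2 hx2 z2 hz2
      _ = _ := by simp only [Finset.sum_const, nsmul_eq_mul]; ring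
  set X := ‖∑ x ∈ A, ∑ z ∈ A, ψ (u * x * z)‖ with hX
  have hX0 : 0 ≤ X := norm_nonneg _
  have hX2 : X ^ 2 ≤ ((#A2 : ℝ) * #A2) ^ 2 * W := by
    calc X ^ 2 ≤ (((#A2 : ℝ) * #A2) * Real.sqrt W) ^ 2 := pow_le_pow_left₀ hX0 hnorm 2
      _ = _ := by rw [mul_pow, Real.sq_sqrt hW0]
  set K : ℝ := 2 ^ (14 * t + 8) with hK
  have hK0 : 0 < K := by positivity
  have henR : K * (E : ℝ) ≤ (#A1 : ℝ) ^ 2 := by
    have : ((2 ^ (14 * t + 8) * E : ℕ) : ℝ) ≤ ((#A1 ^ 2 : ℕ) : ℝ) := by exact_mod_cast hen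
    push_cast at this
    exact this
  have hAcard : (#A : ℝ) = (#A1 : ℝ) * #A2 := by exact_mod_cast hcard
  have hr'0 : (0 : ℝ) ≤ r' := Nat.cast_nonneg _
  have hY : X ^ 2 * K ^ 2 ≤ (#A : ℝ) ^ 4 * r' := by
    calc X ^ 2 * K ^ 2 ≤ (((#A2 : ℝ) * #A2) ^ 2 * W) * K ^ 2 := by gcongr
      _ = ((#A2 : ℝ) * #A2) ^ 2 * r' * (K * (E : ℝ)) ^ 2 := by rw [hW]; ring
      _ ≤ ((#A2 : ℝ) * #A2) ^ 2 * r' * ((#A1 : ℝ) ^ 2) ^ 2 := by gcongr
      _ = _ := by rw [hAcard]; ring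
  have hY4 : (X ^ 2 * K ^ 2) ^ 4 ≤ ((#A : ℝ) ^ 4 * r') ^ 4 := pow_le_pow_left₀ (by positivity) hY 4
  have hrt' : (r' : ℝ) ≤ 65536 ^ (t + 1) := by exact_mod_cast hrt.le
  have hr7 : (r' : ℝ) ^ 7 ≤ K ^ 8 * 2 ^ 48 := by
    calc (r' : ℝ) ^ 7 ≤ (65536 ^ (t + 1)) ^ 7 := pow_le_pow_left₀ hr'0 hrt' 7
      _ = K ^ 8 * 2 ^ 48 := by
        rw [hK, show (65536 : ℝ) = 2 ^ 16 by norm_num, ← pow_mul, ← pow_mul, ← pow_mul, ← pow_add]
        congr 1
        ring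
  have hK8 : 0 < K ^ 8 := by positivity
  have hfin : (X ^ 8 * (r' : ℝ) ^ 3) * K ^ 8 ≤ ((#A : ℝ) ^ 16 * 2 ^ 48) * K ^ 8 := by
    calc (X ^ 8 * (r' : ℝ) ^ 3) * K ^ 8 = (X ^ 2 * K ^ 2) ^ 4 * (r' : ℝ) ^ 3 := by ring
      _ ≤ ((#A : ℝ) ^ 4 * r') ^ 4 * (r' : ℝ) ^ 3 := by gcongr
      _ = (#A : ℝ) ^ 16 * (r' : ℝ) ^ 7 := by ring
      _ ≤ (#A : ℝ) ^ 16 * (K ^ 8 * 2 ^ 48) := by gcongr
      _ = _ := by ring
  exact le_of_mul_le_mul_right hfin hK8

/-- Number of frequencies with a given order is at most that order. -/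
lemma card_fiber_order (r d : ℕ) [NeZero r] (hd : 0 < d) (U : Finset (ZMod r)) :
    #(U.filter fun u => r / Nat.gcd u.val r = d) ≤ d := by
  classical
  have hr0 : 0 < r := Nat.pos_of_ne_zero (NeZero.ne r)
  have key : ∀ u : ZMod r, r / Nat.gcd u.val r = d → Nat.gcd u.val r * d = r ∧ r / d = Nat.gcd u.val r := by
    intro u hu
    have hgr : Nat.gcd u.val r ∣ r := Nat.gcd_dvd_right _ _
    have h1 : Nat.gcd u.val r * d = r := by rw [← hu]; exact Nat.mul_div_cancel' hgr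
    refine ⟨h1, ?_⟩
    exact Nat.div_eq_of_eq_mul_left hd h1.symm
  have := Finset.card_le_card_of_injOn (s := U.filter fun u => r / Nat.gcd u.val r = d)
    (t := Finset.range d) (fun u => u.val / (r / d)) ?_ ?_
  · simpa using this
  · intro u hu
    have hu' : r / Nat.gcd u.val r = d := (Finset.mem_filter.mp (Finset.mem_coe.mp hu)).2
    obtain ⟨h1, h2⟩ := key u hu'
    refine Finset.mem_coe.mpr (Finset.mem_range.mpr ?_)
    rw [h2]
    apply Nat.div_lt_of_lt_mul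
    rw [h1]
    exact ZMod.val_lt u
  · intro u hu w hw h
    have hu' : r / Nat.gcd u.val r = d := (Finset.mem_filter.mp (Finset.mem_coe.mp hu)).2
    have hw' : r / Nat.gcd w.val r = d := (Finset.mem_filter.mp (Finset.mem_coe.mp hw)).2
    obtain ⟨_, h2⟩ := key u hu'
    obtain ⟨_, h3⟩ := key w hw'
    simp only at h
    have e1 : u.val = (r / d) * (u.val / (r / d)) := by
      rw [h2]
      exact (Nat.mul_div_cancel' (Nat.gcd_dvd_left _ _)).symm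
    have e2 : w.val = (r / d) * (w.val / (r / d)) := by
      rw [h3]
      exact (Nat.mul_div_cancel' (Nat.gcd_dvd_left _ _)).symm
    apply ZMod.val_injective
    rw [e1, e2, h]

theorem fourier_zero_sum (r : ℕ) (hr : 2 ≤ r) (H : Finset ℕ) (hHp : ∀ p ∈ H, p.Prime)
    (hcop : ∀ p ∈ H, Nat.Coprime p r) (H' : ℕ → Finset ℕ) (hH' : ∀ t, H' t ⊆ H) (q : ℕ) (hq : 64 ≤ q)
    (hlarge : ∀ r', r' ∣ r → 1 < r' → 2 ^ q < r')
    (henergy : ∀ r', r' ∣ r → 1 < r' →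
      2 ^ (14 * Nat.log 65536 r' + 8) *
        #{p ∈ sp (H' (Nat.log 65536 r')) ×ˢ sp (H' (Nat.log 65536 r')) | p.1 ≡ p.2 [MOD r']}
        ≤ #(sp (H' (Nat.log 65536 r'))) ^ 2) :
    ∃ x z : Fin 8 → ℕ, (∀ i, x i ∈ sp H ∧ z i ∈ sp H) ∧ r ∣ ∑ i, x i * z i := by
  classical
  by_contra hno
  push Not at hno
  have : NeZero r := ⟨by omega⟩
  have hr0 : 0 < r := by omega
  set ψ : AddChar (ZMod r) ℂ := ZMod.stdAddChar with hψdef
  have hψ : ψ.IsPrimitive := ZMod.isPrimitive_stdAddChar r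
  set A := sp H with hA
  have hApos : 0 < #A := by
    rw [hA, card_sp hHp]
    positivity
  set Sm : ZMod r → ℂ := fun u => ∑ x ∈ A, ∑ z ∈ A, ψ (u * x * z) with hSm
  have hident : ∑ u : ZMod r, Sm u ^ 8 = 0 := by
    have h1 : ∀ a : ZMod r, Sm a ^ 8 = ∑ τ ∈ Fintype.piFinset (fun _ : Fin 8 => A ×ˢ A),
        ψ (a * ∑ i : Fin 8, ((τ i).1 : ZMod r) * ((τ i).2 : ZMod r)) := by
      intro a
      have h2 : Sm a = ∑ w ∈ A ×ˢ A, ψ (a * (w.1 : ZMod r) * (w.2 : ZMod r)) := by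
        rw [Finset.sum_product]
      have h3 : Sm a ^ 8 = ∏ _i : Fin 8, ∑ w ∈ A ×ˢ A, ψ (a * (w.1 : ZMod r) * (w.2 : ZMod r)) := by
        rw [← h2]
        simp
      rw [h3, Finset.prod_univ_sum]
      apply Finset.sum_congr rfl
      intro τ _
      rw [Finset.mul_sum, addChar_map_sum]
      apply Finset.prod_congr rfl
      intro i _
      congr 1
      ring
    simp only [h1]
    rw [Finset.sum_comm]
    apply Finset.sum_eq_zero
    intro τ hτ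
    have hmem := Fintype.mem_piFinset.mp hτ
    rw [AddChar.sum_mulShift _ hψ]
    have hne : (∑ i : Fin 8, ((τ i).1 : ZMod r) * ((τ i).2 : ZMod r)) ≠ 0 := by
      intro h0
      apply hno (fun i => (τ i).1) (fun i => (τ i).2)
      · intro i
        exact Finset.mem_product.mp (hmem i)
      · have h4 : ((∑ i : Fin 8, (τ i).1 * (τ i).2 : ℕ) : ZMod r) = 0 := by
          push_cast
          exact h0
        exact (ZMod.natCast_eq_zero_iff _ _).mp h4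
    rw [if_neg hne]
    simp
  have hzero : Sm 0 ^ 8 = ((#A : ℂ)) ^ 16 := by
    have h0 : Sm 0 = (#A : ℂ) * (#A : ℂ) := by
      simp [hSm]
    rw [h0]
    ring
  have hsplit := Finset.add_sum_erase (Finset.univ : Finset (ZMod r)) (fun a => Sm a ^ 8)
    (Finset.mem_univ 0)
  rw [hident, hzero] at hsplit
  have hmain : (#A : ℝ) ^ 16 ≤ ∑ a ∈ (Finset.univ : Finset (ZMod r)).erase 0, ‖Sm a‖ ^ 8 := by
    have h5 : (#A : ℂ) ^ 16 = - ∑ a ∈ (Finset.univ : Finset (ZMod r)).erase 0, Sm a ^ 8 :=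
      eq_neg_of_add_eq_zero_left hsplit
    have h6 := congrArg norm h5
    rw [norm_neg, norm_pow] at h6
    simp only [Complex.norm_natCast] at h6
    rw [h6]
    refine (norm_sum_le _ _).trans (le_of_eq ?_)
    apply Finset.sum_congr rfl
    intro a _
    rw [norm_pow]
  set rp : ZMod r → ℕ := fun u => r / Nat.gcd u.val r with hrp
  have hrp1 : ∀ u ∈ (Finset.univ : Finset (ZMod r)).erase 0, rp u ∣ r ∧ 1 < rp u := by
    intro u hu
    have hu0 : u ≠ 0 := (Finset.mem_erase.mp hu).1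
    have hval : u.val ≠ 0 := fun h => hu0 ((ZMod.val_eq_zero u).mp h)
    have hgle : Nat.gcd u.val r ≤ u.val := Nat.gcd_le_left _ (Nat.pos_of_ne_zero hval)
    have hlt := ZMod.val_lt u
    have hgr : Nat.gcd u.val r ∣ r := Nat.gcd_dvd_right _ _
    have hg0 : 0 < Nat.gcd u.val r := Nat.gcd_pos_of_pos_right _ hr0
    refine ⟨Nat.div_dvd_of_dvd hgr, ?_⟩
    have h1 : Nat.gcd u.val r * rp u = r := Nat.mul_div_cancel' hgr
    by_contra hle
    have hle' : rp u ≤ 1 := not_lt.mp hle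
    have : Nat.gcd u.val r * rp u ≤ Nat.gcd u.val r * 1 := Nat.mul_le_mul_left _ hle'
    omega
  have hterm : ∀ u ∈ (Finset.univ : Finset (ZMod r)).erase 0,
      ‖Sm u‖ ^ 8 ≤ (#A : ℝ) ^ 16 * 2 ^ 48 * (1 / (rp u : ℝ) ^ 3) := by
    intro u hu
    obtain ⟨h1, h2⟩ := hrp1 u hu
    have hlog : rp u < 65536 ^ (Nat.log 65536 (rp u) + 1) :=
      Nat.lt_pow_succ_log_self (by norm_num) _
    have := term_bound ψ hψ H hHp hcop (H' (Nat.log 65536 (rp u))) (hH' _) u (rp u) rfl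
      (Nat.log 65536 (rp u)) hlog (henergy (rp u) h1 h2)
    have hpos : (0 : ℝ) < (rp u : ℝ) ^ 3 := by
      have : (0 : ℝ) < rp u := by exact_mod_cast (by omega : 0 < rp u)
      positivity
    rw [mul_one_div, le_div_iff₀ hpos]
    exact this
  have h2q : 2 ^ q < r := hlarge r dvd_rfl (by omega)
  have hfib : ∑ u ∈ (Finset.univ : Finset (ZMod r)).erase 0, (1 / (rp u : ℝ) ^ 3) ≤ 1 / 2 ^ q := by
    have hmaps : ∀ u ∈ (Finset.univ : Finset (ZMod r)).erase 0, rp u ∈ Finset.Ioc (2 ^ q) r := by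
      intro u hu
      obtain ⟨h1, h2⟩ := hrp1 u hu
      exact Finset.mem_Ioc.mpr ⟨hlarge _ h1 h2, Nat.le_of_dvd hr0 h1⟩
    rw [← Finset.sum_fiberwise_of_maps_to hmaps]
    calc ∑ d ∈ Finset.Ioc (2 ^ q) r, ∑ u ∈ ((Finset.univ : Finset (ZMod r)).erase 0).filter
          (fun u => rp u = d), (1 / (rp u : ℝ) ^ 3)
        ≤ ∑ d ∈ Finset.Ioc (2 ^ q) r, (((d : ℝ)) ^ 2)⁻¹ := by
          apply Finset.sum_le_sum
          intro d hd
          have hd0 : 0 < d := lt_of_le_of_lt (Nat.zero_le _) (Finset.mem_Ioc.mp hd).1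
          have hdR : (0 : ℝ) < d := by exact_mod_cast hd0
          have hc := card_fiber_order r d hd0 ((Finset.univ : Finset (ZMod r)).erase 0)
          have e : ∑ u ∈ ((Finset.univ : Finset (ZMod r)).erase 0).filter (fun u => rp u = d),
              (1 / (rp u : ℝ) ^ 3)
              = ∑ _u ∈ ((Finset.univ : Finset (ZMod r)).erase 0).filter (fun u => rp u = d),
                (1 / (d : ℝ) ^ 3) := by
            apply Finset.sum_congr rfl
            intro u hu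
            rw [(Finset.mem_filter.mp hu).2]
          rw [e, Finset.sum_const, nsmul_eq_mul]
          have hcR : ((#(((Finset.univ : Finset (ZMod r)).erase 0).filter (fun u => rp u = d)) : ℕ) : ℝ)
              ≤ d := by exact_mod_cast hc
          calc _ ≤ (d : ℝ) * (1 / (d : ℝ) ^ 3) := by gcongr
            _ = _ := by field_simp
      _ ≤ ((2 ^ q : ℕ) : ℝ)⁻¹ - (r : ℝ)⁻¹ := sum_Ioc_inv_sq_le_sub (by positivity) h2q.le
      _ ≤ 1 / 2 ^ q := by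
          have : (0 : ℝ) ≤ (r : ℝ)⁻¹ := by positivity
          push_cast
          rw [one_div]
          linarith
  have hApR : (0 : ℝ) < (#A : ℝ) ^ 16 := by
    have : (0 : ℝ) < #A := by exact_mod_cast hApos
    positivity
  have h48 : (2 : ℝ) ^ 48 * (1 / 2 ^ q) ≤ 1 / 2 := by
    have : (2 : ℝ) ^ 64 ≤ 2 ^ q := pow_le_pow_right₀ (by norm_num) hq
    rw [mul_one_div, div_le_iff₀ (by positivity)]
    norm_num at this ⊢
    linarith
  have hfinal : (#A : ℝ) ^ 16 ≤ (#A : ℝ) ^ 16 * (1 / 2) := by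
    calc (#A : ℝ) ^ 16 ≤ ∑ a ∈ (Finset.univ : Finset (ZMod r)).erase 0, ‖Sm a‖ ^ 8 := hmain
      _ ≤ ∑ a ∈ (Finset.univ : Finset (ZMod r)).erase 0,
          (#A : ℝ) ^ 16 * 2 ^ 48 * (1 / (rp a : ℝ) ^ 3) := Finset.sum_le_sum hterm
      _ = (#A : ℝ) ^ 16 * 2 ^ 48 * ∑ a ∈ (Finset.univ : Finset (ZMod r)).erase 0,
          (1 / (rp a : ℝ) ^ 3) := by rw [Finset.mul_sum]
      _ ≤ (#A : ℝ) ^ 16 * 2 ^ 48 * (1 / 2 ^ q) := by gcongr
      _ = (#A : ℝ) ^ 16 * (2 ^ 48 * (1 / 2 ^ q)) := by ring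
      _ ≤ _ := by gcongr
  linarith

end Vale.Agent.Lib.P012c
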