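import Mathlib
import Vale.Agent.Lib.P012c.Defs

open Finset

namespace Vale.Agent.Lib.P012c

open Vale.Agent.Lib.P012

/-- Binomial sums with a weight. -/
lemma choose_sum_le (Ω J K : ℕ) (hK : 0 < K) :
    (∑ j ∈ Finset.range (J + 1), Ω.choose j) * K ^ Ω ≤ K ^ J * (K + 1) ^ Ω := by
  have h1 : ∀ j ∈ Finset.range (J + 1), Ω.choose j * K ^ Ω ≤ K ^ J * (K ^ (Ω - j) * Ω.choose j) := by
    intro j hj
    have hjJ : j ≤ J := by
      have := Finset.mem_range.mp hj
      omega
    by_cases hjO : j ≤ Ω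
    · have e : K ^ Ω = K ^ j * K ^ (Ω - j) := by
        rw [← pow_add]
        congr 1
        omega
      rw [e]
      have : K ^ j ≤ K ^ J := Nat.pow_le_pow_right hK hjJ
      calc Ω.choose j * (K ^ j * K ^ (Ω - j)) = K ^ j * (K ^ (Ω - j) * Ω.choose j) := by ring
        _ ≤ _ := Nat.mul_le_mul_right _ this
    · rw [Nat.choose_eq_zero_of_lt (by omega)]
      simp
  have h2 : ∑ j ∈ Finset.range (J + 1), K ^ (Ω - j) * Ω.choose j ≤ (K + 1) ^ Ω := by
    have e : (K + 1) ^ Ω = ∑ j ∈ Finset.range (Ω + 1), K ^ (Ω - j) * Ω.choose j := by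
      rw [add_comm K 1, add_pow]
      simp
    rw [e]
    apply Finset.sum_le_sum_of_ne_zero
    intro j _ hne
    apply Finset.mem_range.mpr
    by_contra hlt
    apply hne
    rw [Nat.choose_eq_zero_of_lt (by omega)]
    simp
  calc (∑ j ∈ Finset.range (J + 1), Ω.choose j) * K ^ Ω
      = ∑ j ∈ Finset.range (J + 1), Ω.choose j * K ^ Ω := Finset.sum_mul _ _ _
    _ ≤ ∑ j ∈ Finset.range (J + 1), K ^ J * (K ^ (Ω - j) * Ω.choose j) := Finset.sum_le_sum h1
    _ = K ^ J * ∑ j ∈ Finset.range (J + 1), K ^ (Ω - j) * Ω.choose j := (Finset.mul_sum _ _ _).symm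
    _ ≤ _ := Nat.mul_le_mul_left _ h2

lemma succ_pow_le (Ω W : ℕ) (hΩ : Ω ≤ 256 * W) : 1025 ^ Ω ≤ 2 ^ W * 1024 ^ Ω := by
  have hbase : (1025 : ℕ) ^ 256 ≤ 2 * 1024 ^ 256 := by norm_num
  have h1 : (1025 : ℕ) ^ (256 * W) ≤ 2 ^ W * (1024 : ℕ) ^ (256 * W) := by
    rw [pow_mul, pow_mul, ← mul_pow]
    exact Nat.pow_le_pow_left hbase W
  have e1 : (1025 : ℕ) ^ (256 * W) = 1025 ^ Ω * 1025 ^ (256 * W - Ω) := by
    rw [← pow_add]
    congr 1
    omega
  have e2 : (1024 : ℕ) ^ (256 * W) = 1024 ^ Ω * 1024 ^ (256 * W - Ω) := by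
    rw [← pow_add]
    congr 1
    omega
  have h2 : (1024 : ℕ) ^ (256 * W - Ω) ≤ 1025 ^ (256 * W - Ω) :=
    Nat.pow_le_pow_left (by norm_num) _
  have hpos : 0 < (1024 : ℕ) ^ (256 * W - Ω) := by positivity
  apply Nat.le_of_mul_le_mul_right _ hpos
  calc 1025 ^ Ω * 1024 ^ (256 * W - Ω) ≤ 1025 ^ Ω * 1025 ^ (256 * W - Ω) :=
        Nat.mul_le_mul_left _ h2
    _ = (1025 : ℕ) ^ (256 * W) := e1.symm
    _ ≤ 2 ^ W * (1024 : ℕ) ^ (256 * W) := h1
    _ = _ := by rw [e2]; ring

open scoped Classical in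
/-- The number of rough divisors of bounded size. -/
lemma rough_divisor_count (n q I Ω J : ℕ) (hn : 0 < n) (hq : 0 < q)
    (hΩ : ((n.primeFactorsList).filter (fun p => 2 ^ q < p)).length = Ω)
    (hJ : ∀ j, q * j < I → j ≤ J) :
    #((Finset.range (2 ^ I)).filter (fun d => d ∣ n ∧ ∀ p, p.Prime → p ∣ d → 2 ^ q < p))
      ≤ ∑ j ∈ Finset.range (J + 1), Ω.choose j := by
  set L := (n.primeFactorsList).filter (fun p => 2 ^ q < p) with hL
  set P := (Finset.range (J + 1)).biUnion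
    (fun j => (Multiset.powersetCard j (L : Multiset ℕ)).toFinset) with hP
  have hcard : #P ≤ ∑ j ∈ Finset.range (J + 1), Ω.choose j := by
    refine Finset.card_biUnion_le.trans (Finset.sum_le_sum ?_)
    intro j _
    refine (Multiset.toFinset_card_le _).trans ?_
    rw [Multiset.card_powersetCard, Multiset.coe_card, hΩ]
  refine le_trans ?_ hcard
  apply Finset.card_le_card_of_injOn (fun d => (d.primeFactorsList : Multiset ℕ))
  · intro d hd
    obtain ⟨hd1, hd2, hd3⟩ := Finset.mem_filter.mp (Finset.mem_coe.mp hd)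
    have hd1 : d < 2 ^ I := Finset.mem_range.mp hd1
    have hd0 : d ≠ 0 := by
      rintro rfl
      have := Nat.eq_zero_of_zero_dvd hd2
      omega
    have hall : ∀ p ∈ d.primeFactorsList, 2 ^ q < p := fun p hp =>
      hd3 p (Nat.prime_of_mem_primeFactorsList hp) (Nat.dvd_of_mem_primeFactorsList hp)
    have hsub : d.primeFactorsList.Sublist L := by
      have h1 : d.primeFactorsList.Sublist n.primeFactorsList :=
        Nat.primeFactorsList_sublist_of_dvd hd2 hn.ne'
      have h2 := h1.filter (fun p => decide (2 ^ q < p))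
      have h3 : d.primeFactorsList.filter (fun p => decide (2 ^ q < p)) = d.primeFactorsList := by
        apply List.filter_eq_self.mpr
        intro p hp
        simpa using hall p hp
      rw [h3] at h2
      exact h2
    have hlen : d.primeFactorsList.length ≤ J := by
      apply hJ
      have h1 : (2 ^ q) ^ d.primeFactorsList.length ≤ d.primeFactorsList.prod :=
        List.pow_card_le_prod _ _ (fun p hp => (hall p hp).le)
      rw [Nat.prod_primeFactorsList hd0, ← pow_mul] at h1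
      exact (Nat.pow_lt_pow_iff_right (by norm_num : 1 < 2)).mp (lt_of_le_of_lt h1 hd1)
    refine Finset.mem_coe.mpr (Finset.mem_biUnion.mpr ⟨d.primeFactorsList.length,
      Finset.mem_range.mpr (by omega), ?_⟩)
    refine Multiset.mem_toFinset.mpr (Multiset.mem_powersetCard.mpr ⟨?_, by simp⟩)
    exact Multiset.coe_le.mpr hsub.subperm
  · intro d hd d' hd' h
    have hd0 : d ≠ 0 := by
      rintro rfl
      have := Nat.eq_zero_of_zero_dvd (Finset.mem_filter.mp (Finset.mem_coe.mp hd)).2.1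
      omega
    have hd0' : d' ≠ 0 := by
      rintro rfl
      have := Nat.eq_zero_of_zero_dvd (Finset.mem_filter.mp (Finset.mem_coe.mp hd')).2.1
      omega
    have h' : (d.primeFactorsList : Multiset ℕ) = d'.primeFactorsList := h
    have hperm := Multiset.coe_eq_coe.mp h'
    rw [← Nat.prod_primeFactorsList hd0, ← Nat.prod_primeFactorsList hd0', hperm.prod_eq]

open scoped Classical in
theorem tau_bound (s q t n : ℕ) (hq : 1024 ≤ q) (hqs : s ≤ 2 * q + 1) (hs : 12 ≤ s) (ht : 8 ≤ t)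
    (hn : 0 < n) (hnB : n < 2 ^ ((2 * s + 3) * (32 * (t + 1)))) :
    #((Finset.range (2 ^ (16 * (t + 1)))).filter
      (fun d => d ∣ n ∧ ∀ p, p.Prime → p ∣ d → 2 ^ q < p)) ≤ 2 ^ t := by
  set L := (n.primeFactorsList).filter (fun p => 2 ^ q < p) with hL
  set Ω := L.length with hΩ
  set J := 16 * (t + 1) / q with hJdef
  set W := 5 * (t + 1) / 8 + 1 with hW
  have hq0 : 0 < q := by omega
  -- size of Ω
  have hLprod : (2 ^ q) ^ Ω ≤ n := by
    have h1 : (2 ^ q) ^ Ω ≤ L.prod := List.pow_card_le_prod _ _ (fun p hp => by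
      have := (List.mem_filter.mp hp).2
      exact le_of_lt (by simpa using this))
    have h2 : L.prod ∣ n.primeFactorsList.prod := (List.filter_sublist).prod_dvd_prod
    rw [Nat.prod_primeFactorsList hn.ne'] at h2
    exact h1.trans (Nat.le_of_dvd hn h2)
  have hΩ1 : q * Ω < (2 * s + 3) * (32 * (t + 1)) := by
    rw [← pow_mul] at hLprod
    exact (Nat.pow_lt_pow_iff_right (by norm_num : 1 < 2)).mp (lt_of_le_of_lt hLprod hnB)
  have hΩ2 : Ω < 160 * (t + 1) := by
    have h1 : (2 * s + 3) * (32 * (t + 1)) ≤ (5 * q) * (32 * (t + 1)) :=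
      Nat.mul_le_mul_right _ (by omega)
    have h2 : (5 * q) * (32 * (t + 1)) = q * (160 * (t + 1)) := by ring
    exact Nat.lt_of_mul_lt_mul_left (lt_of_lt_of_le hΩ1 (h1.trans h2.le))
  have hΩ3 : Ω ≤ 256 * W := by omega
  have hJ1 : 64 * J ≤ t + 1 := by
    have h1 : J * q ≤ 16 * (t + 1) := Nat.div_mul_le_self _ _
    have h2 : J * 1024 ≤ J * q := Nat.mul_le_mul_left _ hq
    omega
  have hcount := rough_divisor_count n q (16 * (t + 1)) Ω J hn hq0 rfl (by
    intro j hj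
    rw [hJdef, Nat.le_div_iff_mul_le hq0, mul_comm]
    exact hj.le)
  have hchoose := choose_sum_le Ω J 1024 (by norm_num)
  have hsucc := succ_pow_le Ω W hΩ3
  have hfin : (∑ j ∈ Finset.range (J + 1), Ω.choose j) ≤ 1024 ^ J * 2 ^ W := by
    have hpos : 0 < (1024 : ℕ) ^ Ω := by positivity
    apply Nat.le_of_mul_le_mul_right _ hpos
    calc (∑ j ∈ Finset.range (J + 1), Ω.choose j) * 1024 ^ Ω ≤ 1024 ^ J * 1025 ^ Ω := hchoose
      _ ≤ 1024 ^ J * (2 ^ W * 1024 ^ Ω) := Nat.mul_le_mul_left _ hsucc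
      _ = _ := by ring
  have h2 : (1024 : ℕ) ^ J * 2 ^ W = 2 ^ (10 * J + W) := by
    rw [show (1024 : ℕ) = 2 ^ 10 by norm_num, ← pow_mul, ← pow_add]
  refine hcount.trans (hfin.trans ?_)
  rw [h2]
  exact Nat.pow_le_pow_right (by norm_num) (by omega)

lemma card_congruent_le (F : Finset ℕ) (lo N d : ℕ) (hd : 0 < d)
    (hF : ∀ n ∈ F, lo ≤ n ∧ n < lo + N)
    (hcong : ∀ n ∈ F, ∀ n' ∈ F, n ≤ n' → d ∣ n' - n) : #F ≤ N / d + 1 := by
  classical
  rcases F.eq_empty_or_nonempty with h | h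
  · simp [h]
  set a := F.min' h with ha
  have hamem : a ∈ F := Finset.min'_mem _ _
  have hale : ∀ n ∈ F, a ≤ n := fun n hn => Finset.min'_le _ _ hn
  have := Finset.card_le_card_of_injOn (s := F) (t := Finset.range (N / d + 1))
    (fun n => (n - a) / d) ?_ ?_
  · simpa using this
  · intro n hn
    have hn' := Finset.mem_coe.mp hn
    refine Finset.mem_coe.mpr (Finset.mem_range.mpr ?_)
    have h1 := hF n hn'
    have h2 := hF a hamem
    have h3 : n - a ≤ N := by omega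
    have h4 : (n - a) / d ≤ N / d := Nat.div_le_div_right h3
    show (n - a) / d < N / d + 1
    omega
  · intro n hn n' hn' hg
    have hn1 := Finset.mem_coe.mp hn
    have hn2 := Finset.mem_coe.mp hn'
    have hd1 := hcong a hamem n hn1 (hale n hn1)
    have hd2 := hcong a hamem n' hn2 (hale n' hn2)
    have e1 := Nat.div_mul_cancel hd1
    have e2 := Nat.div_mul_cancel hd2
    simp only at hg
    rw [hg] at e1
    have h1 := hale n hn1
    have h2 := hale n' hn2
    omega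

theorem first_moment (M N n1 : ℕ) (hM : 0 < M) (hN : N ≤ n1 + 1) (𝓑 : Finset ℕ)
    (hB : ∀ d ∈ 𝓑, 0 < d ∧ Nat.Coprime d M)
    (hsum : ∑ d ∈ 𝓑, ((N : ℚ) / d + 1) < N) :
    ∃ n, n1 < n + N ∧ n ≤ n1 ∧ ∀ d ∈ 𝓑, ¬ d ∣ 1 + M * n := by
  classical
  by_contra hno
  push Not at hno
  set lo := n1 + 1 - N with hlo
  set I := Finset.Ico lo (lo + N) with hI
  have hIcard : #I = N := by simp [hI]
  have hcover : I ⊆ 𝓑.biUnion (fun d => I.filter (fun n => d ∣ 1 + M * n)) := by
    intro n hn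
    obtain ⟨h1, h2⟩ := Finset.mem_Ico.mp hn
    obtain ⟨d, hd, hdn⟩ := hno n (by omega) (by omega)
    exact Finset.mem_biUnion.mpr ⟨d, hd, Finset.mem_filter.mpr ⟨hn, hdn⟩⟩
  have hper : ∀ d ∈ 𝓑, ((#(I.filter (fun n => d ∣ 1 + M * n)) : ℕ) : ℚ) ≤ (N : ℚ) / d + 1 := by
    intro d hd
    obtain ⟨hd0, hdc⟩ := hB d hd
    have h1 : #(I.filter (fun n => d ∣ 1 + M * n)) ≤ N / d + 1 := by
      apply card_congruent_le _ lo N d hd0
      · intro n hn
        exact Finset.mem_Ico.mp (Finset.mem_filter.mp hn).1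
      · intro n hn n' hn' hle
        have h1 := (Finset.mem_filter.mp hn).2
        have h2 := (Finset.mem_filter.mp hn').2
        have h3 : d ∣ (1 + M * n') - (1 + M * n) := Nat.dvd_sub h2 h1
        have h4 : (1 + M * n') - (1 + M * n) = M * (n' - n) := by
          rw [Nat.mul_sub]
          omega
        rw [h4] at h3
        exact hdc.dvd_of_dvd_mul_left h3
    have h2 : ((N / d : ℕ) : ℚ) ≤ (N : ℚ) / d := Nat.cast_div_le
    have h3 : ((#(I.filter (fun n => d ∣ 1 + M * n)) : ℕ) : ℚ) ≤ ((N / d + 1 : ℕ) : ℚ) := by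
      exact_mod_cast h1
    push_cast at h3
    linarith
  have hc1 : N ≤ ∑ d ∈ 𝓑, #(I.filter (fun n => d ∣ 1 + M * n)) := by
    rw [← hIcard]
    exact (Finset.card_le_card hcover).trans Finset.card_biUnion_le
  have hc2 : (N : ℚ) ≤ ∑ d ∈ 𝓑, ((#(I.filter (fun n => d ∣ 1 + M * n)) : ℕ) : ℚ) := by
    exact_mod_cast hc1
  have hc3 := Finset.sum_le_sum hper
  linarith

end Vale.Agent.Lib.P012c
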