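import Mathlib
import Vale.Agent.Lib.P012c.Defs
import Vale.Agent.Lib.P012c.Fourier
import Vale.Agent.Lib.P012c.Tau

open Finset

namespace Vale.Agent.Lib.P012c

open Vale.Agent.Lib.P012

lemma four_pow (h : ℕ) : 4 ^ h = (2 ^ h) ^ 2 := by
  rw [← pow_mul, mul_comm, pow_mul]
  norm_num

/-- All prime factors of `d` exceed `2^q`. -/
def Rough (q d : ℕ) : Prop := ∀ p, p.Prime → p ∣ d → 2 ^ q < p

open scoped Classical in
/-- Off-diagonal pairs of `A` congruent modulo `d`. -/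
noncomputable def Gc (A : Finset ℕ) (d : ℕ) : ℕ :=
  #{p ∈ A ×ˢ A | p.1 ≠ p.2 ∧ p.1 ≡ p.2 [MOD d]}

open scoped Classical in
/-- The bad moduli of level `t`. -/
noncomputable def Bad (q t : ℕ) (A : Finset ℕ) : Finset ℕ :=
  (Finset.range (2 ^ (16 * (t + 1)))).filter (fun d =>
    2 ^ (16 * t) ≤ d ∧ Rough q d ∧ 4 ^ (32 * (t + 1)) < 2 ^ (14 * t + 9) * Gc A d)

open scoped Classical in
lemma sum_Gc_le (s q t : ℕ) (hq : 1024 ≤ q) (hqs : s ≤ 2 * q + 1) (hs : 12 ≤ s) (ht : 8 ≤ t)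
    (A : Finset ℕ) (hA : ∀ x ∈ A, 0 < x ∧ x ≤ 2 ^ ((2 * s + 3) * (32 * (t + 1)))) :
    ∑ d ∈ ((Finset.range (2 ^ (16 * (t + 1)))).filter (Rough q)),
      Gc A d ≤ #A ^ 2 * 2 ^ t := by
  unfold Gc
  simp_rw [Finset.card_filter]
  rw [Finset.sum_comm]
  calc _ ≤ ∑ _p ∈ A ×ˢ A, 2 ^ t := by
        apply Finset.sum_le_sum
        rintro ⟨x, y⟩ hp
        rw [← Finset.card_filter]
        by_cases hxy : x = y
        · simp [hxy]
        · have hx := hA x (mem_product.mp hp).1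
          have hy := hA y (mem_product.mp hp).2
          have hn0 : 0 < ((x : ℤ) - (y : ℤ)).natAbs := by omega
          refine le_trans (Finset.card_le_card ?_) (tau_bound s q t ((x : ℤ) - (y : ℤ)).natAbs
            hq hqs hs ht hn0 (natAbs_sub_lt hx.1 hy.1 hx.2 hy.2))
          intro d hd
          obtain ⟨hd1, hd2⟩ := Finset.mem_filter.mp hd
          obtain ⟨hd3, hd4⟩ := Finset.mem_filter.mp hd1
          refine Finset.mem_filter.mpr ⟨hd3, ?_, ?_⟩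
          · have h1 : (d : ℤ) ∣ (y : ℤ) - (x : ℤ) := (Nat.modEq_iff_dvd).mp hd2.2
            have h2 : (d : ℤ) ∣ (x : ℤ) - (y : ℤ) := by
              have := dvd_neg.mpr h1
              simpa using this
            exact Int.natCast_dvd.mp h2
          · exact hd4
    _ = _ := by
        simp only [Finset.sum_const, Finset.card_product, smul_eq_mul]
        ring

lemma bad_card (s q t : ℕ) (hq : 1024 ≤ q) (hqs : s ≤ 2 * q + 1) (hs : 12 ≤ s) (ht : 8 ≤ t)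
    (A : Finset ℕ) (hA : ∀ x ∈ A, 0 < x ∧ x ≤ 2 ^ ((2 * s + 3) * (32 * (t + 1))))
    (hAc : #A = 2 ^ (32 * (t + 1))) : #(Bad q t A) ≤ 2 ^ (15 * t + 9) := by
  classical
  set X := 4 ^ (32 * (t + 1)) with hX
  have h1 : #(Bad q t A) * X ≤ 2 ^ (14 * t + 9) * ∑ d ∈ Bad q t A, Gc A d := by
    rw [Finset.mul_sum, ← smul_eq_mul, ← Finset.sum_const]
    apply Finset.sum_le_sum
    intro d hd
    exact (Finset.mem_filter.mp hd).2.2.2.le
  have h2 : ∑ d ∈ Bad q t A, Gc A d ≤ ∑ d ∈ ((Finset.range (2 ^ (16 * (t + 1)))).filter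
      (Rough q)), Gc A d := by
    apply Finset.sum_le_sum_of_subset
    intro d hd
    obtain ⟨hd1, hd2⟩ := Finset.mem_filter.mp hd
    exact Finset.mem_filter.mpr ⟨hd1, hd2.2.1⟩
  have h3 := sum_Gc_le s q t hq hqs hs ht A hA
  have h4 : #A ^ 2 = X := by
    rw [hAc, hX, four_pow]
  rw [h4] at h3
  have hX0 : 0 < X := by positivity
  apply Nat.le_of_mul_le_mul_right _ hX0
  calc #(Bad q t A) * X ≤ 2 ^ (14 * t + 9) * ∑ d ∈ Bad q t A, Gc A d := h1
    _ ≤ 2 ^ (14 * t + 9) * (X * 2 ^ t) := Nat.mul_le_mul_left _ (h2.trans h3)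
    _ = 2 ^ (15 * t + 9) * X := by
        rw [show 15 * t + 9 = (14 * t + 9) + t by ring, pow_add]
        ring

lemma sum_union_le' {f : ℕ → ℚ} (hf : ∀ x, 0 ≤ f x) (A B : Finset ℕ) :
    ∑ x ∈ A ∪ B, f x ≤ ∑ x ∈ A, f x + ∑ x ∈ B, f x := by
  have h := Finset.sum_union_inter (s₁ := A) (s₂ := B) (f := f)
  have h0 : 0 ≤ ∑ x ∈ A ∩ B, f x := Finset.sum_nonneg fun x _ => hf x
  linarith

lemma sum_biUnion_le' {f : ℕ → ℚ} (hf : ∀ x, 0 ≤ f x) (I : Finset ℕ) (g : ℕ → Finset ℕ) :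
    ∑ x ∈ I.biUnion g, f x ≤ ∑ i ∈ I, ∑ x ∈ g i, f x := by
  classical
  induction I using Finset.induction_on with
  | empty => simp
  | insert a I ha ih =>
    rw [Finset.biUnion_insert, Finset.sum_insert ha]
    exact (sum_union_le' hf _ _).trans (by linarith)

lemma geo_half (a b : ℕ) (hab : a ≤ b) :
    ∑ t ∈ Finset.Icc a b, ((1 : ℚ) / 2) ^ t + (1 / 2) ^ b ≤ 2 * (1 / 2) ^ a := by
  induction b, hab using Nat.le_induction with
  | base =>
    simp only [Finset.Icc_self, Finset.sum_singleton]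
    linarith
  | succ n hn ih =>
    rw [Finset.sum_Icc_succ_top (by omega), pow_succ]
    linarith

lemma geo_big (a b : ℕ) (hab : a ≤ b) :
    ∑ t ∈ Finset.Icc a b, ((2 : ℚ) ^ (15 * t + 9)) ≤ 2 ^ (15 * b + 10) := by
  induction b, hab using Nat.le_induction with
  | base =>
    simp only [Finset.Icc_self, Finset.sum_singleton]
    have e : (2 : ℚ) ^ (15 * a + 10) = 2 * 2 ^ (15 * a + 9) := by ring
    have : (0 : ℚ) < 2 ^ (15 * a + 9) := by positivity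
    rw [e]
    linarith
  | succ n hn ih =>
    rw [Finset.sum_Icc_succ_top (by omega)]
    have e1 : (2 : ℚ) ^ (15 * (n + 1) + 9) = 2 ^ (15 * n + 10) * 16384 := by ring
    have e2 : (2 : ℚ) ^ (15 * (n + 1) + 10) = 2 ^ (15 * n + 10) * 32768 := by ring
    rw [e1, e2]
    have : (0 : ℚ) < 2 ^ (15 * n + 10) := by positivity
    linarith

lemma sum_bad_le (N q t : ℕ) (A : Finset ℕ) (hcard : #(Bad q t A) ≤ 2 ^ (15 * t + 9)) :
    ∑ d ∈ Bad q t A, ((N : ℚ) / d + 1) ≤ (N : ℚ) * 2 ^ 9 * (1 / 2) ^ t + 2 ^ (15 * t + 9) := by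
  classical
  have h1 : ∀ d ∈ Bad q t A, ((N : ℚ) / d + 1) ≤ (N : ℚ) / 2 ^ (16 * t) + 1 := by
    intro d hd
    have hd2 : 2 ^ (16 * t) ≤ d := (Finset.mem_filter.mp hd).2.1
    have hd3 : ((2 : ℚ) ^ (16 * t)) ≤ d := by exact_mod_cast hd2
    have : (0 : ℚ) < 2 ^ (16 * t) := by positivity
    gcongr
  have hp : (0 : ℚ) ≤ (N : ℚ) / 2 ^ (16 * t) + 1 := by positivity
  calc ∑ d ∈ Bad q t A, ((N : ℚ) / d + 1)
      ≤ ∑ _d ∈ Bad q t A, ((N : ℚ) / 2 ^ (16 * t) + 1) := Finset.sum_le_sum h1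
    _ = (#(Bad q t A) : ℚ) * ((N : ℚ) / 2 ^ (16 * t) + 1) := by
        rw [Finset.sum_const, nsmul_eq_mul]
    _ ≤ ((2 : ℚ) ^ (15 * t + 9)) * ((N : ℚ) / 2 ^ (16 * t) + 1) := by
        apply mul_le_mul_of_nonneg_right _ hp
        exact_mod_cast hcard
    _ = _ := by
        have e1 : (2 : ℚ) ^ (15 * t + 9) = 2 ^ (15 * t) * 2 ^ 9 := by rw [pow_add]
        have e2 : (2 : ℚ) ^ (16 * t) = 2 ^ (15 * t) * 2 ^ t := by
          rw [← pow_add, show 16 * t = 15 * t + t by ring]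
        have e3 : ((1 : ℚ) / 2) ^ t = 1 / 2 ^ t := by rw [div_pow, one_pow]
        rw [e2, e3, e1]
        field_simp

lemma rough_coprime {q d : ℕ} (h : Rough q d) : Nat.Coprime d (2 ^ q).factorial := by
  apply Nat.coprime_of_dvd
  intro p hp hd hM
  have h1 := h p hp hd
  have h2 := (hp.dvd_factorial).mp hM
  omega

open scoped Classical in
lemma energy_split (A : Finset ℕ) (d : ℕ) :
    #{p ∈ A ×ˢ A | p.1 ≡ p.2 [MOD d]} ≤ #A + Gc A d := by
  unfold Gc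
  have h1 : {p ∈ A ×ˢ A | p.1 ≡ p.2 [MOD d]} ⊆
      ((A ×ˢ A).filter (fun p => p.1 = p.2)) ∪ {p ∈ A ×ˢ A | p.1 ≠ p.2 ∧ p.1 ≡ p.2 [MOD d]} := by
    intro p hp
    obtain ⟨hp1, hp2⟩ := Finset.mem_filter.mp hp
    by_cases h : p.1 = p.2
    · exact Finset.mem_union_left _ (Finset.mem_filter.mpr ⟨hp1, h⟩)
    · exact Finset.mem_union_right _ (Finset.mem_filter.mpr ⟨hp1, h, hp2⟩)
  have h2 : #((A ×ˢ A).filter (fun p => p.1 = p.2)) ≤ #A := by
    apply Finset.card_le_card_of_injOn (fun p => p.1)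
    · intro p hp
      exact Finset.mem_coe.mpr (Finset.mem_product.mp (Finset.mem_filter.mp (Finset.mem_coe.mp hp)).1).1
    · intro p hp p' hp' h
      have e1 := (Finset.mem_filter.mp (Finset.mem_coe.mp hp)).2
      have e2 := (Finset.mem_filter.mp (Finset.mem_coe.mp hp')).2
      simp only at h
      exact Prod.ext h (by rw [← e1, ← e2, h])
  calc _ ≤ _ := Finset.card_le_card h1
    _ ≤ _ := Finset.card_union_le _ _
    _ ≤ _ := Nat.add_le_add_right h2 _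

/-- The core of the short interval lemma. -/
lemma si_core (s : ℕ) (hs : 4096 ≤ s) (H : Finset ℕ)
    (hHp : ∀ p ∈ H, p.Prime ∧ 2 ^ (2 * s) < p ∧ p ≤ 2 ^ (2 * s + 3)) (hHcard : #H = 2 ^ (s + 3))
    (H' : ℕ → Finset ℕ) (hH'1 : ∀ t, H' t ⊆ H) (hH'2 : ∀ t, 32 * (t + 1) ≤ #H → #(H' t) = 32 * (t + 1))
    (e : ℕ) (he1 : 2 ^ s ≤ e) (he2 : e < 2 ^ (s + 1)) (y : ℕ) (hy1 : 2 ^ e ≤ y) (hy2 : y < 2 ^ (e + 1)) :
    ∃ r, 0 < r ∧ r ≤ y ∧ y < r + 2 ^ (e - e / 64) ∧ Eff ((∏ p ∈ H, p) ^ 2) r := by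
  classical
  set q := s / 2 with hq
  have hq1 : 2048 ≤ q := by omega
  have hqs : s ≤ 2 * q + 1 := by omega
  have hqs' : 2 * q ≤ s := by omega
  set M := (2 ^ q).factorial with hM
  have hM0 : 0 < M := Nat.factorial_pos _
  set L := 2 ^ (e - e / 64) with hL
  set N := L / M with hN
  set n1 := (y - 1) / M with hn1
  set t0 := q / 16 with ht0
  set T := e / 16 with hT
  have hPrimes : ∀ p ∈ H, p.Prime := fun p hp => (hHp p hp).1
  -- size facts
  have h4s := four_sq_le_two_pow s (by omega)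
  have he3 : 4 * s + 100 ≤ e := by nlinarith
  have h4q := four_sq_le_two_pow q (by omega)
  have h128 : 128 * q ≤ 2 ^ q := by nlinarith
  have hqe : q * 2 ^ q ≤ e / 128 := by
    rw [Nat.le_div_iff_mul_le (by norm_num)]
    have h1 : 2 ^ q * 2 ^ q ≤ 2 ^ s := by
      rw [← pow_add]
      exact Nat.pow_le_pow_right (by norm_num) (by omega)
    calc q * 2 ^ q * 128 = (128 * q) * 2 ^ q := by ring
      _ ≤ 2 ^ q * 2 ^ q := Nat.mul_le_mul_right _ h128
      _ ≤ 2 ^ s := h1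
      _ ≤ e := he1
  have hMle : M ≤ 2 ^ (q * 2 ^ q) := by
    calc M ≤ (2 ^ q) ^ (2 ^ q) := Nat.factorial_le_pow _
      _ = _ := by rw [← pow_mul]
  set N0 := e - e / 64 - e / 128 with hN0
  have hNlow : 2 ^ N0 ≤ N := by
    rw [hN, Nat.le_div_iff_mul_le hM0]
    calc 2 ^ N0 * M ≤ 2 ^ N0 * 2 ^ (q * 2 ^ q) := Nat.mul_le_mul_left _ hMle
      _ = 2 ^ (N0 + q * 2 ^ q) := (pow_add _ _ _).symm
      _ ≤ L := Nat.pow_le_pow_right (by norm_num) (by omega)
  have hLe : L ≤ 2 ^ e := Nat.pow_le_pow_right (by norm_num) (by omega)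
  have hmodM : y ≤ M * (n1 + 1) := by
    have h1 : M * n1 + (y - 1) % M = y - 1 := Nat.div_add_mod (y - 1) M
    have h2 := Nat.mod_lt (y - 1) hM0
    have hy0 : 0 < y := lt_of_lt_of_le (by positivity) hy1
    rw [mul_add, mul_one]
    omega
  have hMN : M * N ≤ L := Nat.mul_div_le _ _
  have hNn1 : N ≤ n1 + 1 := by
    apply Nat.le_of_mul_le_mul_left _ hM0
    calc M * N ≤ L := hMN
      _ ≤ y := hLe.trans hy1
      _ ≤ _ := hmodM
  -- the level facts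
  have hpow1 : 2 ^ (s + 1) = 2 * 2 ^ s := by ring
  have hpow3 : 2 ^ (s + 3) = 8 * 2 ^ s := by ring
  have hpow0 : 32 ≤ 2 ^ s := by
    calc 32 = 2 ^ 5 := by norm_num
      _ ≤ 2 ^ s := Nat.pow_le_pow_right (by norm_num) (by omega)
  have hlev : ∀ t, t ≤ T → 32 * (t + 1) ≤ #H := by
    intro t ht
    rw [hHcard]
    omega
  have ht08 : 8 ≤ t0 := by omega
  have hApack : ∀ t, t ≤ T → (∀ x ∈ sp (H' t), 0 < x ∧ x ≤ 2 ^ ((2 * s + 3) * (32 * (t + 1)))) ∧
      #(sp (H' t)) = 2 ^ (32 * (t + 1)) := by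
    intro t ht
    have hc := hH'2 t (hlev t ht)
    have hp : ∀ p ∈ H' t, p.Prime := fun p hp => hPrimes p (hH'1 t hp)
    constructor
    · intro x hx
      refine ⟨mem_sp_pos hp hx, (mem_sp_le hp hx).trans ?_⟩
      have := prod_le_two_pow (H := H' t) (B := 2 * s + 3)
        (fun p hp => (hHp p (hH'1 t hp)).2.2)
      rwa [hc] at this
    · rw [card_sp hp, hc]
  set 𝓑 := ((Finset.Icc t0 T).biUnion (fun t => Bad q t (sp (H' t)))) ∪ H with h𝓑
  have hB : ∀ d ∈ 𝓑, 0 < d ∧ Nat.Coprime d M := by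
    intro d hd
    rcases Finset.mem_union.mp hd with h | h
    · obtain ⟨t, _, ht2⟩ := Finset.mem_biUnion.mp h
      obtain ⟨_, hd2, hd3, _⟩ := Finset.mem_filter.mp ht2
      exact ⟨lt_of_lt_of_le (by positivity) hd2, rough_coprime hd3⟩
    · obtain ⟨hp1, hp2, _⟩ := hHp d h
      refine ⟨hp1.pos, ?_⟩
      apply rough_coprime
      intro p hp hpd
      have := (Nat.prime_dvd_prime_iff_eq hp hp1).mp hpd
      rw [this]
      calc 2 ^ q ≤ 2 ^ (2 * s) := Nat.pow_le_pow_right (by norm_num) (by omega)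
        _ < d := hp2
  have hNpos : (0 : ℚ) < N := by
    have : 0 < N := lt_of_lt_of_le (by positivity) hNlow
    exact_mod_cast this
  have hNQ : (2 : ℚ) ^ N0 ≤ N := by exact_mod_cast hNlow
  have hTt0 : t0 ≤ T := by omega
  have hsum : ∑ d ∈ 𝓑, ((N : ℚ) / d + 1) < N := by
    have hf : ∀ x : ℕ, (0 : ℚ) ≤ (N : ℚ) / x + 1 := fun x => by positivity
    have h1 := sum_union_le' hf ((Finset.Icc t0 T).biUnion (fun t => Bad q t (sp (H' t)))) H
    have h2 := sum_biUnion_le' hf (Finset.Icc t0 T) (fun t => Bad q t (sp (H' t)))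
    have h3 : ∑ t ∈ Finset.Icc t0 T, ∑ d ∈ Bad q t (sp (H' t)), ((N : ℚ) / d + 1)
        ≤ ∑ t ∈ Finset.Icc t0 T, ((N : ℚ) * 2 ^ 9 * (1 / 2) ^ t + 2 ^ (15 * t + 9)) := by
      apply Finset.sum_le_sum
      intro t ht
      obtain ⟨ht1, ht2⟩ := Finset.mem_Icc.mp ht
      obtain ⟨hA1, hA2⟩ := hApack t ht2
      exact sum_bad_le N q t _ (bad_card s q t (by omega) hqs (by omega) (by omega) _ hA1 hA2)
    have h4 : ∑ t ∈ Finset.Icc t0 T, ((N : ℚ) * 2 ^ 9 * (1 / 2) ^ t + 2 ^ (15 * t + 9))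
        ≤ (N : ℚ) / 16 + 2 ^ (15 * T + 10) := by
      rw [Finset.sum_add_distrib, ← Finset.mul_sum]
      have g1 := geo_half t0 T hTt0
      have g2 := geo_big t0 T hTt0
      have g3 : ((1 : ℚ) / 2) ^ t0 ≤ (1 / 2) ^ 14 :=
        pow_le_pow_of_le_one (by norm_num) (by norm_num) (by omega)
      have g4 : (0 : ℚ) ≤ (1 / 2) ^ T := by positivity
      have g5 : ∑ t ∈ Finset.Icc t0 T, ((1 : ℚ) / 2) ^ t ≤ 2 * (1 / 2) ^ 14 := by linarith
      have g6 : (N : ℚ) * 2 ^ 9 * ∑ t ∈ Finset.Icc t0 T, ((1 : ℚ) / 2) ^ t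
          ≤ (N : ℚ) * 2 ^ 9 * (2 * (1 / 2) ^ 14) := by gcongr
      have g7 : (N : ℚ) * 2 ^ 9 * (2 * (1 / 2) ^ 14) ≤ (N : ℚ) / 16 := by
        norm_num
        linarith
      linarith
    have h5 : ∑ d ∈ H, ((N : ℚ) / d + 1) ≤ (N : ℚ) / 16 + 2 ^ (s + 3) := by
      have hb : ∀ d ∈ H, ((N : ℚ) / d + 1) ≤ (N : ℚ) / 2 ^ (2 * s) + 1 := by
        intro d hd
        have hd2 : ((2 : ℚ) ^ (2 * s)) ≤ d := by exact_mod_cast (hHp d hd).2.1.le
        have : (0 : ℚ) < 2 ^ (2 * s) := by positivity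
        gcongr
      calc ∑ d ∈ H, ((N : ℚ) / d + 1) ≤ ∑ _d ∈ H, ((N : ℚ) / 2 ^ (2 * s) + 1) :=
            Finset.sum_le_sum hb
        _ = (2 : ℚ) ^ (s + 3) * ((N : ℚ) / 2 ^ (2 * s) + 1) := by
            rw [Finset.sum_const, nsmul_eq_mul, hHcard]
            push_cast
            ring
        _ = (N : ℚ) * (2 ^ (s + 3) / 2 ^ (2 * s)) + 2 ^ (s + 3) := by ring
        _ ≤ (N : ℚ) * (1 / 16) + 2 ^ (s + 3) := by
            have : ((2 : ℚ) ^ (s + 3) / 2 ^ (2 * s)) ≤ 1 / 16 := by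
              rw [div_le_iff₀ (by positivity)]
              have e1 : (2 : ℚ) ^ (s + 3) * 2 ^ 4 ≤ 2 ^ (2 * s) := by
                rw [← pow_add]
                exact pow_le_pow_right₀ (by norm_num) (by omega)
              norm_num at e1 ⊢
              linarith
            gcongr
        _ = _ := by ring
    have h6 : (2 : ℚ) ^ (15 * T + 12) ≤ N :=
      (pow_le_pow_right₀ (by norm_num) (by omega)).trans hNQ
    have h7 : (2 : ℚ) ^ (s + 5) ≤ N :=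
      (pow_le_pow_right₀ (by norm_num) (by omega)).trans hNQ
    have h8 : (2 : ℚ) ^ (15 * T + 12) = 4 * 2 ^ (15 * T + 10) := by
      rw [show 15 * T + 12 = (15 * T + 10) + 2 by ring, pow_add]
      ring
    have h9 : (2 : ℚ) ^ (s + 5) = 4 * 2 ^ (s + 3) := by
      rw [show s + 5 = (s + 3) + 2 by ring, pow_add]
      ring
    linarith
  obtain ⟨n, hn1', hn2, hn3⟩ := first_moment M N n1 hM0 hNn1 𝓑 hB hsum
  have hy0 : 0 < y := lt_of_lt_of_le (by positivity) hy1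
  have hMn : M * n ≤ y - 1 := by
    calc M * n ≤ M * n1 := Nat.mul_le_mul_left _ hn2
      _ ≤ y - 1 := Nat.mul_div_le _ _
  set r := 1 + M * n with hr
  have hr1 : r ≤ y := by omega
  have hr2 : y < r + L := by
    have h1 : M * (n1 + 1) ≤ M * (n + N) := Nat.mul_le_mul_left _ (by omega)
    have h2 : M * (n + N) = M * n + M * N := by ring
    omega
  have hLhalf : 2 * L ≤ 2 ^ e := by
    rw [hL, ← pow_succ']
    exact Nat.pow_le_pow_right (by norm_num) (by omega)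
  have hLpos : 0 < L := by positivity
  have hr3 : 2 ≤ r := by
    by_contra hlt
    have : r ≤ 1 := by omega
    have h1 : 2 ^ e ≤ 1 + L := by omega
    have h2 : 2 ≤ L := by
      rw [hL]
      calc 2 = 2 ^ 1 := by norm_num
        _ ≤ _ := Nat.pow_le_pow_right (by norm_num) (by omega)
    omega
  have hrough : Rough q r := by
    intro p hp hpr
    by_contra hle
    have hle' : p ≤ 2 ^ q := not_lt.mp hle
    have h1 : p ∣ M := (hp.dvd_factorial).mpr hle'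
    have h2 : p ∣ M * n := Dvd.dvd.mul_right h1 n
    have h3 : p ∣ 1 := (Nat.dvd_add_left h2).mp hpr
    exact hp.one_lt.ne' (Nat.dvd_one.mp h3)
  have hlarge : ∀ r', r' ∣ r → 1 < r' → 2 ^ q < r' := by
    intro r' hd h1
    have hp := Nat.minFac_prime (by omega : r' ≠ 1)
    have h2 := hrough _ hp ((Nat.minFac_dvd r').trans hd)
    exact lt_of_lt_of_le h2 (Nat.minFac_le (by omega))
  have hcop : ∀ p ∈ H, Nat.Coprime p r := by
    intro p hp
    rw [Nat.Prime.coprime_iff_not_dvd (hPrimes p hp)]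
    exact hn3 p (Finset.mem_union_right _ hp)
  have henergy : ∀ r', r' ∣ r → 1 < r' →
      2 ^ (14 * Nat.log 65536 r' + 8) *
        #{p ∈ sp (H' (Nat.log 65536 r')) ×ˢ sp (H' (Nat.log 65536 r')) | p.1 ≡ p.2 [MOD r']}
        ≤ #(sp (H' (Nat.log 65536 r'))) ^ 2 := by
    intro r' hd h1
    set t := Nat.log 65536 r' with ht
    have h65 : (65536 : ℕ) = 2 ^ 16 := by norm_num
    have hl1 : 2 ^ (16 * t) ≤ r' := by
      rw [pow_mul, ← h65]
      exact Nat.pow_log_le_self 65536 (by omega)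
    have hl2 : r' < 2 ^ (16 * (t + 1)) := by
      rw [pow_mul, ← h65]
      exact Nat.lt_pow_succ_log_self (by norm_num) _
    have hl3 := hlarge r' hd h1
    have ht1 : q < 16 * (t + 1) :=
      (Nat.pow_lt_pow_iff_right (by norm_num : 1 < 2)).mp (hl3.trans hl2)
    have hr'y : r' ≤ y := (Nat.le_of_dvd (by omega) hd).trans hr1
    have ht2 : 16 * t < e + 1 :=
      (Nat.pow_lt_pow_iff_right (by norm_num : 1 < 2)).mp
        (lt_of_le_of_lt (hl1.trans hr'y) hy2)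
    have htT : t ≤ T := by omega
    have ht0' : t0 ≤ t := by omega
    obtain ⟨hA1, hA2⟩ := hApack t htT
    have hnb : r' ∉ Bad q t (sp (H' t)) := by
      intro hmem
      exact hn3 r' (Finset.mem_union_left _ (Finset.mem_biUnion.mpr
        ⟨t, Finset.mem_Icc.mpr ⟨ht0', htT⟩, hmem⟩)) hd
    have hnb' : 2 ^ (14 * t + 9) * Gc (sp (H' t)) r' ≤ 4 ^ (32 * (t + 1)) := by
      by_contra hlt
      push Not at hlt
      apply hnb
      refine Finset.mem_filter.mpr ⟨Finset.mem_range.mpr hl2, hl1, ?_, hlt⟩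
      intro p hp hpd
      exact hrough p hp (hpd.trans hd)
    have hsplit := energy_split (sp (H' t)) r'
    rw [hA2] at hsplit ⊢
    set E := #{p ∈ sp (H' t) ×ˢ sp (H' t) | p.1 ≡ p.2 [MOD r']} with hE
    set G := Gc (sp (H' t)) r' with hG
    set Y := 2 ^ (32 * (t + 1)) with hY
    have hY4 : 4 ^ (32 * (t + 1)) = Y ^ 2 := four_pow _
    rw [hY4] at hnb'
    set Z := 2 ^ (14 * t + 8) with hZ
    have hZ2 : 2 ^ (14 * t + 9) = 2 * Z := by rw [hZ]; ring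
    rw [hZ2] at hnb'
    have hZY : 2 * Z ≤ Y := by
      rw [← hZ2, hY]
      exact Nat.pow_le_pow_right (by norm_num) (by omega)
    have h3 : 2 * (Z * E) ≤ 2 * Y ^ 2 := by
      calc 2 * (Z * E) ≤ 2 * (Z * (Y + G)) := by gcongr
        _ = (2 * Z) * Y + 2 * Z * G := by ring
        _ ≤ Y * Y + Y ^ 2 := Nat.add_le_add (Nat.mul_le_mul_right _ hZY) hnb'
        _ = _ := by ring
    exact Nat.le_of_mul_le_mul_left h3 (by norm_num)
  obtain ⟨x, z, hxz, hdvd⟩ := fourier_zero_sum r hr3 H hPrimes hcop H' hH'1 q (by omega) hlarge henergy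
  refine ⟨r, by omega, hr1, hr2, fun i => x i * z i, ?_, hdvd⟩
  intro i
  obtain ⟨hx, hz⟩ := hxz i
  refine ⟨Nat.mul_pos (mem_sp_pos hPrimes hx) (mem_sp_pos hPrimes hz), ?_⟩
  rw [sq]
  exact Nat.mul_dvd_mul (mem_sp_dvd hx) (mem_sp_dvd hz)

theorem si_exists (s : ℕ) (hs : 4096 ≤ s) : ∃ H : Finset ℕ,
    (∀ p ∈ H, p.Prime ∧ p ≤ 2 ^ (2 * s + 3)) ∧ #H = 2 ^ (s + 3) ∧ SI s ((∏ p ∈ H, p) ^ 2) := by
  classical
  have hP := prime_count (2 * s) (by omega)
  have hbig : 2 ^ (s + 3) ≤ #(primesIn (2 * s)) := by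
    by_contra hlt
    push Not at hlt
    have h1 : 2 * s * #(primesIn (2 * s)) < 2 * s * 2 ^ (s + 3) :=
      Nat.mul_lt_mul_of_pos_left hlt (by omega)
    have h2 := four_sq_le_two_pow s (by omega)
    have h3 : 2 ^ (2 * s) = 2 ^ s * 2 ^ s := by ring
    have h4 : 2 * s * 2 ^ (s + 3) = 16 * s * 2 ^ s := by ring
    have h5 : 16 * s ≤ 2 ^ s := by nlinarith
    have h6 : 16 * s * 2 ^ s ≤ 2 ^ s * 2 ^ s := Nat.mul_le_mul_right _ h5
    omega
  obtain ⟨H, hHsub, hHcard⟩ := Finset.exists_subset_card_eq hbig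
  have hHp : ∀ p ∈ H, p.Prime ∧ 2 ^ (2 * s) < p ∧ p ≤ 2 ^ (2 * s + 3) :=
    fun p hp => mem_primesIn.mp (hHsub hp)
  refine ⟨H, fun p hp => ⟨(hHp p hp).1, (hHp p hp).2.2⟩, hHcard, ?_⟩
  have hex : ∀ t, ∃ T, T ⊆ H ∧ (32 * (t + 1) ≤ #H → #T = 32 * (t + 1)) := by
    intro t
    by_cases h : 32 * (t + 1) ≤ #H
    · obtain ⟨T, h1, h2⟩ := Finset.exists_subset_card_eq h
      exact ⟨T, h1, fun _ => h2⟩
    · exact ⟨∅, Finset.empty_subset _, fun h' => absurd h' h⟩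
  choose H' hH'1 hH'2 using hex
  intro e he1 he2 y hy1 hy2
  exact si_core s hs H hHp hHcard H' hH'1 hH'2 e he1 he2 y hy1 hy2

end Vale.Agent.Lib.P012c
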